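import Crest.Agent.X212.Tau19.Tau
import Crest.Agent.X212.Orx52.Pos

/-!
# X212 / Tau19, part Ori (helper19): the twist preserves every orientation; the neighbourhood is connected
-/

set_option autoImplicit false
set_option linter.unusedSectionVars false

open Set Filter Topology Function
open scoped ContDiff Manifold

noncomputable section

namespace Crest.Agent.X212.Tau19

open Crest.Agent.X212.Glue52 Crest.Agent.X212.Rod53 Crest.Agent.X212.Orx52 Crest.Agent.X212.Int54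
open Crest.Agent.R208.F (Ext)

variable {n e : ℕ} {k R r : ℝ}

theorem lt_rh (hk : 0 < k) {W : ℝ} : W < rh k R ↔ k ^ 2 / 2 * (1 + 2 * W) < R := by
  rw [rh, lt_sub_iff_add_lt, lt_div_iff₀ (by positivity)]
  constructor <;> intro h <;> linarith

theorem rh_lt_rh (hk : 0 < k) (h : r < R) : rh k r < rh k R :=
  sub_lt_sub_right (div_lt_div_of_pos_right h (by positivity)) _

theorem isPreconnected_Un : IsPreconnected {z : ℂ × ℂ | ‖z.1‖ ^ 2 + ‖z.2‖ ^ 2 = 1} := by
  have h := (isPreconnected_sphere (E := E4) (by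
    rw [← Module.finrank_eq_rank]; simp) 0 1).image _ L4.continuous.continuousOn
  convert h using 1
  ext z
  obtain ⟨x, rfl⟩ := L4.surjective z
  rw [mem_ofPred_eq, norm_L4, L4.injective.mem_set_image, mem_sphere_zero_iff_norm,
    pow_eq_one_iff_of_nonneg (norm_nonneg _) two_ne_zero]

theorem isPreconnected_Dm (hk : 0 < k) : IsPreconnected (Dm k R) := by
  convert isPreconnected_Un.prod (convex_ball (0 : ℂ) √(rh k R)).isPreconnected using 1
  ext m
  exact and_congr Iff.rfl (by rw [mem_ball_zero_iff, Real.lt_sqrt (norm_nonneg _), lt_rh hk])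

variable {EN HN : Type} [NormedAddCommGroup EN] [NormedSpace ℝ EN] [FiniteDimensional ℝ EN]
  [TopologicalSpace HN] {IN : ModelWithCorners ℝ EN HN} [IN.Boundaryless]
  {N : Type} [TopologicalSpace N] [ChartedSpace HN N] [IsManifold IN ∞ N] [T2Space N]

namespace Sph

variable {v : ℝ → Z2} {a b a' : Z2} {c : ℝ} (S : Sph v a b a' n c k R) (T : Tb IN N)

theorem isPreconnected_image : IsPreconnected (S.Ψ T '' Dm k R) :=
  (isPreconnected_Dm S.pos).image _ (S.smD T).continuousOn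

theorem K_subset_image (hr : r < R) : S.K T (rh k r) ⊆ S.Ψ T '' Dm k R := image_mono (S.K_dom hr)

theorem image_subset_disc : S.Ψ T '' Dm k R ⊆ T.disc v c (Iio R) := by
  rintro _ ⟨m, h, rfl⟩
  exact ⟨S.Ψ_mem_tor T h, (S.rr_Ψ T h).trans_lt h.2⟩

theorem exists_off (hr : r ∈ Ioo (k ^ 2 / 2) R) : ∃ x ∈ S.Ψ T '' Dm k R, x ∉ S.K T (rh k r) := by
  obtain ⟨W, h1, h2⟩ := exists_between (rh_lt_rh S.pos hr.2)
  have h0 := (rh_pos S.pos hr.1).trans h1
  have e : ‖(√W : ℂ)‖ ^ 2 = W := by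
    rw [Complex.norm_real, Real.norm_eq_abs, sq_abs, Real.sq_sqrt h0.le]
  have hm : (((1, 0), √W) : C3) ∈ Dm k R := ⟨by simp [Un], (lt_rh S.pos).1 (e.trans_lt h2)⟩
  exact ⟨_, ⟨_, hm, rfl⟩, fun t => ((S.Ψ_mem_K T hr.2 hm).1 t).not_gt (h1.trans_eq e.symm)⟩

variable (hn : n * e = 2) (hr : r ∈ Ioo (k ^ 2 / 2) R)

theorem tau_ev {x : X T v} (hx : x ∉ S.K T (rh k r)) : S.tau T hn hr =ᶠ[𝓝 x] id :=
  eventually_of_mem ((S.isCompact_K T hr.2).isClosed.isOpen_compl.mem_nhds hx) fun _ => S.tau_off T hn hr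

/-- the twist preserves orientations -/
theorem pos_tau {O : X T v → Ext E4} (hO : Ori (𝓡 4) O) : Pos (𝓡 4) (𝓡 4) (S.tau T hn hr) univ O O := by
  have h1 : Pos (𝓡 4) (𝓡 4) (S.tau T hn hr) (S.K T (rh k r))ᶜ O O :=
    (pos_id.2 (oriOn hO _).same).congr' fun _ => S.tau_ev T hn hr
  obtain ⟨x, x1, x2⟩ := S.exists_off T hr
  have h2 : Pos (𝓡 4) (𝓡 4) (S.tau T hn hr) (S.Ψ T '' Dm k R) O O :=
    pos_of_pt (S.isPreconnected_image T) (oriOn hO _) (oriOn hO univ)
      (fun y _ => (S.tau T hn hr).isLocalDiffeomorph y) (mapsTo_univ _ _) x1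
      (h1.mono (singleton_subset_iff.2 x2))
  exact (h1.union h2).mono fun y _ => (em _).symm.imp_right fun t => S.K_subset_image T hr.2 t

end Sph

end Crest.Agent.X212.Tau19
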