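import Crest.Agent.X212.Tau19.Lin
import Crest.Agent.X212.Tau19.Ori
import Crest.Agent.X212.Line51.Rod

/-!
# X212 / Tau19, part TL (helper19): the twist reflects toric lines

`O(∑ m_j D_j)` is pulled back to `O(∑ m'_j D_j)` with `m'_b = - m_b + e (m_a + m_a')`, by an isometry that is the
standard one (`U s' = s`) off the core.
-/

set_option autoImplicit false
set_option linter.unusedSectionVars false

open Set Filter Topology Function Matrix
open scoped ContDiff Manifold ComplexConjugate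

noncomputable section

namespace Crest.Agent.X212.Tau19

open Crest.Agent.X212.Glue52 Crest.Agent.X212.Pj41
open Crest.Agent.X212.Rod53 hiding Uni
open Crest.Agent.X212.Line51

variable {EN HN : Type} [NormedAddCommGroup EN] [NormedSpace ℝ EN] [FiniteDimensional ℝ EN]
  [TopologicalSpace HN] {IN : ModelWithCorners ℝ EN HN} [IN.Boundaryless]
  {N : Type} [TopologicalSpace N] [ChartedSpace HN N] [IsManifold IN ∞ N] [T2Space N]
  {κ l : Type*} [Fintype κ] [Fintype l] {n e : ℕ} {k R r : ℝ}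

theorem mul_sc {M : Type*} (u : Matrix κ Unit ℂ) (g : M → Circle) (x : M) : u * sc g x = (g x : ℂ) • u := by
  ext i j
  simp [Matrix.mul_apply, sc, mul_comm]

theorem xt_of_TL {v : ℝ → Z2} {T : Tb IN N} {m : ℝ → ℤ} {p : X T v → Matrix κ κ ℂ}
    {s : X T v → Matrix κ Unit ℂ} {O : Set (X T v)} {η : Z2} (hO : IsOpen O) (ht : O ⊆ T.tor v)
    (h : TL T v m p s O) (hη : ∀ x ∈ O, x ∉ off T v → Rep v m η (T.time v x)) :
    ∃ t, Xt T p s (-η) t O := by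
  obtain ⟨t, h1, h2⟩ := h.exists_fr hO (tl_chi ht hη)
  exact ⟨t, h1, fun x hx o => by
    rw [← (Tau19.mul_sc _ _ _).symm.trans (h2 x hx o), csmul_smul, chi_neg o, inv_mul_cancel, Circle.coe_one,
      one_smul]⟩

theorem dot_eq_of_pm {η η' a w : Z2} (h : PM w a) (e : dot η w = dot η' w) : dot η a = dot η' a := by
  have := (dot_pm (η := η - η') h).1 (by rw [dot_sub, e, sub_self])
  rwa [dot_sub, sub_eq_zero] at this

theorem exists_V2 (n : ℕ) (hk : 0 < k) {ζ : ℂ} (h : ‖ζ‖ ^ 2 < k ^ 2) :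
    ∃ m : C3, Un m ∧ m.1.1 ≠ 0 ∧ m.2 = 0 ∧ V2 n k m = (0, ζ) := by
  have h1 : 0 < 1 - ‖ζ‖ ^ 2 / k ^ 2 := by rw [sub_pos, div_lt_one (by positivity)]; exact h
  have h2 := Real.sqrt_pos.2 h1
  have h3 : dir (√(1 - ‖ζ‖ ^ 2 / k ^ 2) : ℂ) = 1 := by simpa using dir_mul h2 1
  have h4 : (k : ℂ) ≠ 0 := by exact_mod_cast hk.ne'
  refine ⟨((√(1 - ‖ζ‖ ^ 2 / k ^ 2), ζ / k), 0), ?_, Complex.ofReal_ne_zero.2 h2.ne', rfl, Prod.ext ?_ ?_⟩
  · simp only [Un]
    rw [Complex.norm_real, Real.norm_eq_abs, sq_abs, Real.sq_sqrt h1.le, norm_div, div_pow, Complex.norm_real,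
      Real.norm_eq_abs, sq_abs]
    ring
  · simp [V2]
  · simp only [V2, h3, ch]
    simp
    field_simp

namespace Sph

variable {v : ℝ → Z2} {a b a' : Z2} {c : ℝ} (S : Sph v a b a' n c k R) (T : Tb IN N)

/-- the sphere lies in the core -/
theorem mem_K_of_axis {ρ : ℝ} (hρ : 0 ≤ ρ) {x : X T v} (hx : x ∉ off T v)
    (ht : T.time v x ∈ Icc (c - k ^ 2 / 2) (c + k ^ 2 / 2)) : x ∈ S.K T ρ := by
  have h0 := S.lt
  have hk : 0 < k ^ 2 := by have := S.pos; positivity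
  have hD : ∀ m : C3, Un m → m.2 = 0 → m ∈ Dm k R := fun m h1 h2 => ⟨h1, by rw [h2]; simpa using h0⟩
  rcases lt_or_ge (T.time v x) c with h | h
  · obtain ⟨z, hz, rfl⟩ := T.mem_vtx S.uni (tor_of_not_off hx)
      (Or.inr (S.left _ ⟨by linarith [ht.1], by linarith⟩))
    rw [T.time_vtx _ hz, tm] at ht h
    rw [vtx_mem_off _ hz] at hx
    have z2 : z.2 = 0 := by_contra fun t => by
      have z1 : z.1 = 0 := by_contra fun t' => hx ⟨t', t⟩
      have := ht.1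
      rw [z1, norm_zero] at this
      nlinarith [norm_pos_iff.2 t]
    rw [z2, norm_zero] at h
    obtain ⟨m, m1, m2, m3, m4⟩ := exists_V2 n S.pos (ζ := z.1) (by linarith)
    refine ⟨sw m, ⟨m1.sw, by simpa [sw, m3] using hρ⟩, (S.Ψ_1 T (Dm.sw (hD m m1 m3)) m2).trans ?_⟩
    rw [V1, sw_sw, m4, Prod.swap_prod_mk, ← z2]
  · obtain ⟨z, hz, rfl⟩ := T.mem_vtx S.uni' (tor_of_not_off hx)
      (Or.inr (S.right _ ⟨by linarith, by linarith [ht.2]⟩))
    rw [T.time_vtx _ hz, tm] at ht h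
    rw [vtx_mem_off _ hz] at hx
    have z1 : z.1 = 0 := by_contra fun t => by
      have z2 : z.2 = 0 := by_contra fun t' => hx ⟨t, t'⟩
      have := ht.2
      rw [z2, norm_zero] at this
      nlinarith [norm_pos_iff.2 t]
    rw [z1, norm_zero] at h
    obtain ⟨m, m1, m2, m3, m4⟩ := exists_V2 n S.pos (ζ := z.2) (by linarith)
    refine ⟨m, ⟨m1, by simpa [m3] using hρ⟩, (S.Ψ_2 T m2).trans ?_⟩
    rw [m4, ← z1]

variable {p : X T v → Matrix κ κ ℂ} {q : X T v → Matrix l l ℂ} {s : X T v → Matrix κ Unit ℂ}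
  {s' : X T v → Matrix l Unit ℂ} {η₁ η₂ η₁' η₂' : Z2} {m m' : ℝ → ℤ} {O : Set (X T v)}

/-- **the twist reflects toric lines** -/
theorem exists_uni_TL (hn : n * e = 2) (hr : r ∈ Ioo (k ^ 2 / 2) R) (hO : IsOpen O)
    (hD : S.Ψ T '' Dm k R ⊆ O) (h : TL T v m p s O) (h' : TL T v m' q s' O)
    (r1 : ∀ t ∈ Ioo (c - R) (c + k ^ 2 / 2), Rep v m η₁ t)
    (r2 : ∀ t ∈ Ioo (c - k ^ 2 / 2) (c + R), Rep v m η₂ t)
    (r1' : ∀ t ∈ Ioo (c - R) (c + k ^ 2 / 2), Rep v m' η₁' t)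
    (r2' : ∀ t ∈ Ioo (c - k ^ 2 / 2) (c + R), Rep v m' η₂' t)
    (hm : ∀ t ∉ Icc (c - k ^ 2 / 2) (c + k ^ 2 / 2), m' t = m t)
    (hb : dot η₂' b = -dot η₂ b + e * (dot η₁ a + dot η₂ a')) :
    ∃ U, Uni (𝓡 4) q (fun x => p (S.tau T hn hr x)) U O ∧
      ∀ x ∈ O, x ∉ S.K T (rh k r) → x ∈ off T v → U x * s' x = s x := by
  have h0 := S.lt
  have hk : 0 < k ^ 2 := by have := S.pos; positivity
  have hn' : (n : ℤ) * e = 2 := by exact_mod_cast hn
  have s1 : S.O1 T ⊆ S.Ψ T '' Dm k R := image_mono fun _ t => t.1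
  have s2 : S.O2 T ⊆ S.Ψ T '' Dm k R := image_mono fun _ t => t.1
  have st : S.Ψ T '' Dm k R ⊆ T.tor v := fun _ t => (S.image_subset_disc T t).1
  obtain ⟨t₁, x1⟩ := xt_of_TL (S.isOpen_O1 T) (s1.trans st) (h.mono (s1.trans hD))
    fun x t o => r1 _ (S.time_O1 T t o)
  obtain ⟨t₂, x2⟩ := xt_of_TL (S.isOpen_O2 T) (s2.trans st) (h.mono (s2.trans hD))
    fun x t o => r2 _ (S.time_O2 T t o)
  obtain ⟨t₁', x1'⟩ := xt_of_TL (S.isOpen_O1 T) (s1.trans st) (h'.mono (s1.trans hD))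
    fun x t o => r1' _ (S.time_O1 T t o)
  obtain ⟨t₂', x2'⟩ := xt_of_TL (S.isOpen_O2 T) (s2.trans st) (h'.mono (s2.trans hD))
    fun x t o => r2' _ (S.time_O2 T t o)
  have c1 : c ∈ Ioo (c - R) (c + k ^ 2 / 2) := ⟨by linarith, by linarith⟩
  have c2 : c ∈ Ioo (c - k ^ 2 / 2) (c + R) := ⟨by linarith, by linarith⟩
  have pb : PM (v c) b := Jr.pm (Jv.right (S.left c c1) c2.1)
  have b1 : dot η₁ b = dot η₂ b :=
    dot_eq_of_pm pb ((r1 c c1).self_of_nhds.trans (r2 c c2).self_of_nhds.symm)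
  have b2 : dot η₁' b = dot η₂' b :=
    dot_eq_of_pm pb ((r1' c c1).self_of_nhds.trans (r2' c c2).self_of_nhds.symm)
  obtain ⟨ta, ta1, ta2⟩ := exists_between (show c - R < c - k ^ 2 / 2 by linarith)
  obtain ⟨tb, tb1, tb2⟩ := exists_between (show c + k ^ 2 / 2 < c + R by linarith)
  have d1 : ta ∈ Ioo (c - R) (c + k ^ 2 / 2) := ⟨ta1, by linarith⟩
  have d2 : tb ∈ Ioo (c - k ^ 2 / 2) (c + R) := ⟨by linarith, tb2⟩
  have a1 : dot η₁' a = dot η₁ a := dot_eq_of_pm (Jr.pm (Jv.left (S.left _ d1) ta2))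
    ((r1' _ d1).self_of_nhds.trans ((hm _ fun t => t.1.not_gt ta2).trans (r1 _ d1).self_of_nhds.symm))
  have a2 : dot η₂' a' = dot η₂ a' := dot_eq_of_pm (Jr.pm (Jv.right (S.right _ d2) tb1))
    ((r2' _ d2).self_of_nhds.trans ((hm _ fun t => t.2.not_gt tb1).trans (r2 _ d2).self_of_nhds.symm))
  have oK : IsOpen (O \ S.K T (rh k r)) := hO.sdiff (S.isCompact_K T hr.2).isClosed
  obtain ⟨u, u1, u2⟩ := ((h'.mono sdiff_subset).congr_m (m' := m) fun x hx o =>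
    eventually_of_mem (isClosed_Icc.isOpen_compl.mem_nhds fun t =>
      hx.2 (S.mem_K_of_axis T (rh_pos S.pos hr.1).le o t)) fun t ht => (hm t ht).symm).uni oK
    (h.mono sdiff_subset)
  obtain ⟨U, U1, U2⟩ := S.exists_uni_tor T hn hr x1 x2 (by rw [dot_neg, dot_neg, b1]) x1' x2'
    (by rw [dot_neg, dot_neg, b2]) (by rw [dot_neg, dot_neg, a1]) (by rw [dot_neg, dot_neg, a2]) (by
      simp only [dot_neg]
      rw [hb, eq_sub_of_add_eq' (S.dot_sum η₁), b1]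
      linear_combination (-dot η₂ b) * hn') hD u1 fun x t1 t2 o => u2 x ⟨hD t1, t2⟩ o
  exact ⟨U, U1, fun x t1 t2 o => by rw [U2 x t2, u2 x ⟨t1, t2⟩ o]⟩

end Sph

/-- the sphere of a word with oriented rods -/
theorem sph_wd {s : ℤ → Z2} {i : ℤ} (hu : Rod53.Uni (s (i - 1)) (s i))
    (h : s (i + 1) = -s (i - 1) + (n : ℤ) • s i) :
    Sph (wd s) (s (i - 1)) (s i) (s (i + 1)) n (i + 1 / 2) 1 (3 / 2) :=
  Sph.of_wd hu h (PM.refl _) (PM.refl _) (PM.refl _)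

/-- **the twist reflects toric lines on words** -/
theorem exists_uni_wd {s : ℤ → Z2} {i : ℤ} (hu : Rod53.Uni (s (i - 1)) (s i))
    (h : s (i + 1) = -s (i - 1) + (n : ℤ) • s i) (T : Tb IN N) (hn : n * e = 2)
    (hr : r ∈ Ioo ((1 : ℝ) ^ 2 / 2) (3 / 2)) {w w' : ℤ → ℤ} (hw : ∀ j, j ≠ i → w' j = w j)
    (hi : w' i = -w i + e * (w (i - 1) + w (i + 1))) {O : Set (X T (wd s))} (hO : IsOpen O)
    (hD : T.disc (wd s) (i + 1 / 2) (Iio (3 / 2)) ⊆ O) {p : X T (wd s) → Matrix κ κ ℂ}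
    {q : X T (wd s) → Matrix l l ℂ} {σ : X T (wd s) → Matrix κ Unit ℂ} {σ' : X T (wd s) → Matrix l Unit ℂ}
    (hp : TL T (wd s) (wm s w) p σ O) (hq : TL T (wd s) (wm s w') q σ' O) :
    ∃ U, Uni (𝓡 4) q (fun x => p ((sph_wd hu h).tau T hn hr x)) U O ∧
      ∀ x ∈ O, x ∉ (sph_wd hu h).K T (rh 1 r) → x ∈ off T (wd s) → U x * σ' x = σ x := by
  have u2 := (sph_wd hu h).uni'
  have r1 : ∀ (w : ℤ → ℤ) (t : ℝ), t ∈ Ioo ((i : ℝ) + 1 / 2 - 3 / 2) ((i : ℝ) + 1 / 2 + 1 ^ 2 / 2) →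
      Rep (wd s) (wm s w) (Line51.dual (s (i - 1)) (s i) (w (i - 1)) (w i)) t := fun w t ht =>
    rep_wd (i := i - 1) (j := i) (fun j j1 j2 => by
      rcases (by omega : j = i - 1 ∨ j = i) with e | e <;> rw [e]
      exacts [dual_left hu _ _, dual_right hu _ _])
      ⟨by push_cast; linarith [ht.1], by linarith [ht.2]⟩
  have r2 : ∀ (w : ℤ → ℤ) (t : ℝ), t ∈ Ioo ((i : ℝ) + 1 / 2 - 1 ^ 2 / 2) ((i : ℝ) + 1 / 2 + 3 / 2) →
      Rep (wd s) (wm s w) (Line51.dual (s i) (s (i + 1)) (w i) (w (i + 1))) t := fun w t ht =>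
    rep_wd (i := i) (j := i + 1) (fun j j1 j2 => by
      rcases (by omega : j = i ∨ j = i + 1) with e | e <;> rw [e]
      exacts [dual_left u2 _ _, dual_right u2 _ _])
      ⟨by linarith [ht.1], by push_cast; linarith [ht.2]⟩
  refine (sph_wd hu h).exists_uni_TL T hn hr hO (((sph_wd hu h).image_subset_disc T).trans hD) hp hq
    (r1 w) (r2 w) (r1 w') (r2 w') (fun t ht => ?_) ?_
  · rw [wm, wm, hw]
    intro e
    have e1 := Int.floor_le t
    have e2 := Int.lt_floor_add_one t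
    rw [e] at e1 e2
    exact ht ⟨by linarith, by linarith⟩
  · rw [dual_left u2, dual_left u2, dual_left hu, dual_right u2, hi]

end Crest.Agent.X212.Tau19
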