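import Crest.Agent.X212.Tau19.Mod
import Crest.Agent.X212.Rod53.Word

/-!
# X212 / Tau19, part Tau (helper19): the twist in a toric sphere of square `-2` or `-1`

* `Sph v a b a' n c k R` : rods `a | b | a'` with `a + a' = n b`, vertices at `c ∓ k² / 2`, nothing else on
  `(c - R, c + R)`; `Sph.of_wd` for words;
* `S.Ψ T : C3 → X T v` identifies `Dm k R / S¹` with an open neighbourhood of the sphere;
* `S.dsc T F d` : descent of an invariant function, `cm_dsc`, `contMDiff_dsc`;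
* `S.tau T hn hr : X T v ≃ₘ X T v` (`n e = 2`), the identity off the compact set `S.K T (rh k r) ⊆ T.disc v c (Iic r)`.
-/

set_option autoImplicit false
set_option linter.unusedSectionVars false

open Set Filter Topology Function
open scoped ContDiff Manifold ComplexConjugate

noncomputable section

namespace Crest.Agent.X212.Tau19

open Crest.Agent.X212.Glue52 Crest.Agent.X212.Rod53

/-- a toric sphere of square `-n` (in the orientation of the bases `(a, b)`, `(b, a')`) -/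
structure Sph (v : ℝ → Z2) (a b a' : Z2) (n : ℕ) (c k R : ℝ) : Prop where
  uni : Uni a b
  sum : a' = -a + (n : ℤ) • b
  pos : 0 < k
  lt : k ^ 2 / 2 < R
  left : ∀ x ∈ Ioo (c - R) (c + k ^ 2 / 2), x ∈ Jv v a b (c - k ^ 2 / 2)
  right : ∀ x ∈ Ioo (c - k ^ 2 / 2) (c + R), x ∈ Jv v b a' (c + k ^ 2 / 2)

/-- the domain of the model -/
def Dm (k R : ℝ) : Set C3 := {m | Un m ∧ k ^ 2 / 2 * (1 + 2 * ‖m.2‖ ^ 2) < R}

/-- the value of `‖w‖²` on the ellipse with major semi-axis `r` -/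
def rh (k r : ℝ) : ℝ := r / k ^ 2 - 1 / 2

theorem Jv_congr {v : ℝ → Z2} {a b α β : Z2} {c x : ℝ} (h : x ∈ Jv v a b c) (h1 : PM a α) (h2 : PM b β) :
    x ∈ Jv v α β c :=
  mem_Jv.2 ((mem_Jv.1 h).mono fun _ k => ⟨fun e => (k.1 e).trans h1, k.2.1, fun e => (k.2.2 e).trans h2⟩)

theorem Sph.of_wd {s : ℤ → Z2} {i : ℤ} {a b a' : Z2} {n : ℕ} (hu : Uni a b) (h : a' = -a + (n : ℤ) • b)
    (h1 : PM (s (i - 1)) a) (h2 : PM (s i) b) (h3 : PM (s (i + 1)) a') :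
    Sph (wd s) a b a' n (i + 1 / 2) 1 (3 / 2) := by
  have u2 : Uni b a' := by
    rw [h, Uni, dt_add_smul, dt_self, mul_zero, add_zero]
    exact hu.symm.neg_right
  have k1 : Uni (s (i - 1)) (s i) := (h2.uni (h1.uni hu).symm).symm
  have k2 : Uni (s (i + 1 - 1)) (s (i + 1)) := by
    rw [add_sub_cancel_right]
    exact (h3.uni (h2.uni u2).symm).symm
  refine ⟨hu, h, one_pos, by norm_num, fun x hx => ?_, fun x hx => ?_⟩
  · rw [show (i : ℝ) + 1 / 2 - 1 ^ 2 / 2 = i by ring]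
    exact Jv_congr (Ioo_subset_Jv k1 ⟨by linarith [hx.1], by linarith [hx.2]⟩) h1 h2
  · rw [show (i : ℝ) + 1 / 2 + 1 ^ 2 / 2 = (i + 1 : ℤ) by push_cast; ring]
    refine Jv_congr (Ioo_subset_Jv k2 ⟨?_, ?_⟩) (by rw [add_sub_cancel_right]; exact h2) h3 <;> push_cast
    exacts [by linarith [hx.1], by linarith [hx.2]]

variable {n e : ℕ} {k R r ρ ε : ℝ} {m m' : C3}

theorem Dm.act (h : m ∈ Dm k R) (l : Circle) : act n l m ∈ Dm k R := ⟨h.1.act l, by rw [norm_act3]; exact h.2⟩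

theorem Dm.tt (hρ : 0 < ρ) (hε : ε * ε = 1) (h : m ∈ Dm k R) : tt e ρ ε m ∈ Dm k R :=
  ⟨h.1.tt hρ hε, by rw [norm_tt]; exact h.2⟩

theorem Dm.sw (h : m ∈ Dm k R) : sw m ∈ Dm k R := ⟨h.1.sw, h.2⟩

theorem tmo_sw (m : C3) : tmo k (sw m) = -tmo k m := by
  simp only [tmo, sw, Prod.fst_swap, Prod.snd_swap]
  ring

theorem tmo_lt (h : m ∈ Dm k R) : tmo k m < R := by
  refine lt_of_le_of_lt ?_ h.2
  have h1 : ‖m.1.1‖ ^ 2 - ‖m.1.2‖ ^ 2 ≤ 1 := by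
    have := h.1
    unfold Un at this
    nlinarith [sq_nonneg ‖m.1.2‖]
  exact mul_le_mul_of_nonneg_left (mul_le_of_le_one_left (by positivity) h1) (by positivity)

theorem lt_tmo (hk : 0 < k) (h : Un m) (h1 : m.1.1 ≠ 0) (h2 : m.2 = 0 ∨ m.1.2 = 0) :
    -(k ^ 2 / 2) < tmo k m := by
  have h3 : 0 < ‖m.1.1‖ ^ 2 := by positivity
  have h4 : 0 < k ^ 2 := by positivity
  unfold Un at h
  unfold tmo
  rcases h2 with e | e <;> rw [e, norm_zero] at *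
  · nlinarith [mul_pos h4 h3]
  · have : 0 ≤ k ^ 2 / 2 * ((‖m.1.1‖ ^ 2 - 0 ^ 2) * (1 + 2 * ‖m.2‖ ^ 2)) := by
      rw [zero_pow two_ne_zero, sub_zero]; positivity
    linarith

theorem tmo_neg (hk : 0 < k) (h : Un m) (h1 : m.1.1 = 0) : tmo k m < 0 := by
  have h3 : 0 < ‖m.1.2‖ ^ 2 := by have := h.ne h1; positivity
  rw [tmo, h1, norm_zero, zero_pow two_ne_zero, zero_sub, neg_mul, mul_neg, neg_lt_zero]
  positivity

theorem V21_ne (hk : 0 < k) (h1 : m.1.1 ≠ 0) : (V2 n k m).1 = 0 ↔ m.2 = 0 := by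
  rw [← norm_eq_zero, norm_V21 hk]
  simp [hk.ne', h1]

theorem V22_ne (hk : 0 < k) : (V2 n k m).2 = 0 ↔ m.1.2 = 0 := by
  rw [← norm_eq_zero, norm_V22 hk]
  simp [hk.ne', (ch_pos m.2).ne']

theorem dir_V22 (hk : 0 < k) (h : m.1.2 ≠ 0) : dir (V2 n k m).2 = dir m.1.2 * (dir m.1.1)⁻¹ :=
  (dir_pos_mul (mul_pos hk (ch_pos _)) _).trans (dir_mul_circle h _)

theorem rh_pos (hk : 0 < k) (hr : k ^ 2 / 2 < r) : 0 < rh k r := by
  rw [rh, sub_pos, lt_div_iff₀ (by positivity)]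
  linarith

theorem le_rh (hk : 0 < k) {W : ℝ} : W ≤ rh k r ↔ k ^ 2 / 2 * (1 + 2 * W) ≤ r := by
  rw [rh, le_sub_iff_add_le, le_div_iff₀ (by positivity)]
  constructor <;> intro h <;> linarith

theorem isCompact_K (ρ : ℝ) : IsCompact {m : C3 | Un m ∧ ‖m.2‖ ^ 2 ≤ ρ} := by
  refine Metric.isCompact_of_isClosed_isBounded
    ((isClosed_eq (f := fun m : C3 => ‖m.1.1‖ ^ 2 + ‖m.1.2‖ ^ 2) (by fun_prop) continuous_const).inter
      (isClosed_le (f := fun m : C3 => ‖m.2‖ ^ 2) (by fun_prop) continuous_const))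
    ((Metric.isBounded_closedBall (x := (0 : C3)) (r := |ρ| + 1)).subset ?_)
  rintro m ⟨h1, h2⟩
  unfold Un at h1
  have := le_abs_self ρ
  have := abs_nonneg ρ
  rw [mem_closedBall_zero_iff, Prod.norm_def, Prod.norm_def, max_le_iff, max_le_iff]
  refine ⟨⟨?_, ?_⟩, ?_⟩ <;> nlinarith [norm_nonneg m.1.1, norm_nonneg m.1.2, norm_nonneg m.2]

/-- `F` is the restriction of smooth germs along `D` -/
def SmD {E' H' M' : Type*} [NormedAddCommGroup E'] [NormedSpace ℝ E'] [TopologicalSpace H']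
    (J : ModelWithCorners ℝ E' H') [TopologicalSpace M'] [ChartedSpace H' M'] (D : Set C3) (F : C3 → M') :
    Prop := ∀ m ∈ D, ∃ g, ContMDiffAt 𝓘(ℝ, C3) J ∞ g m ∧ ∀ᶠ y in 𝓝 m, y ∈ D → F y = g y

section SmD

variable {E' H' M' : Type*} [NormedAddCommGroup E'] [NormedSpace ℝ E'] [TopologicalSpace H']
  {J : ModelWithCorners ℝ E' H'} [TopologicalSpace M'] [ChartedSpace H' M']
  {E H M : Type*} [NormedAddCommGroup E] [NormedSpace ℝ E] [TopologicalSpace H]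
  {I : ModelWithCorners ℝ E H} [TopologicalSpace M] [ChartedSpace H M] {D : Set C3} {F : C3 → M'}

theorem SmD.of_cm (h : ∀ m ∈ D, ContMDiffAt 𝓘(ℝ, C3) J ∞ F m) : SmD J D F :=
  fun m hm => ⟨F, h m hm, Eventually.of_forall fun _ _ => rfl⟩

theorem SmD.cm (h : SmD J D F) {s : M → C3} {x : M} (hs : ContMDiffAt I 𝓘(ℝ, C3) ∞ s x)
    (hD : ∀ᶠ y in 𝓝 x, s y ∈ D) : ContMDiffAt I J ∞ (fun y => F (s y)) x := by
  obtain ⟨g, g1, g2⟩ := h _ hD.self_of_nhds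
  refine (g1.comp x hs).congr_of_eventuallyEq ?_
  filter_upwards [hD, hs.continuousAt.eventually g2] with y h1 h2 using h2 h1

theorem SmD.comp (h : SmD J D F) {t : C3 → C3} (ht : ContDiff ℝ ∞ t) (hD : MapsTo t D D) :
    SmD J D fun y => F (t y) := fun m hm => by
  obtain ⟨g, g1, g2⟩ := h _ (hD hm)
  exact ⟨g ∘ t, g1.comp m ht.contMDiff.contMDiffAt,
    (ht.continuous.continuousAt.eventually g2).mono fun y h1 h2 => h1 (hD h2)⟩

theorem SmD.post (h : SmD J D F) {G : M' → M} (hG : ∀ m ∈ D, ContMDiffAt J I ∞ G (F m)) :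
    SmD I D fun y => G (F y) := fun m hm => by
  obtain ⟨g, g1, g2⟩ := h m hm
  exact ⟨G ∘ g, ContMDiffAt.comp m (g2.self_of_nhds hm ▸ hG m hm) g1,
    g2.mono fun y h1 h2 => congrArg G (h1 h2)⟩

theorem SmD.continuousOn (h : SmD J D F) : ContinuousOn F D := fun m hm => by
  obtain ⟨g, g1, g2⟩ := h m hm
  exact g1.continuousAt.continuousWithinAt.congr_of_eventuallyEq
    (eventually_nhdsWithin_iff.2 g2) (g2.self_of_nhds hm)

end SmD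

variable {EN HN : Type} [NormedAddCommGroup EN] [NormedSpace ℝ EN] [FiniteDimensional ℝ EN]
  [TopologicalSpace HN] {IN : ModelWithCorners ℝ EN HN} [IN.Boundaryless]
  {N : Type} [TopologicalSpace N] [ChartedSpace HN N] [IsManifold IN ∞ N] [T2Space N]

namespace Sph

variable {v : ℝ → Z2} {a b a' : Z2} {c : ℝ} (S : Sph v a b a' n c k R) (T : Tb IN N)
include S

theorem uni' : Uni b a' := by
  rw [S.sum, Uni, dt_add_smul, dt_self, mul_zero, add_zero]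
  exact S.uni.symm.neg_right

theorem mem2 (h : m ∈ Dm k R) (h1 : m.1.1 ≠ 0) : V2 n k m ∈ Uv v b a' (c + k ^ 2 / 2) := by
  by_cases e : m.2 = 0 ∨ m.1.2 = 0
  · refine Or.inr (S.right _ ?_)
    rw [tm_V2 S.pos c h.1]
    exact ⟨by linarith [lt_tmo S.pos h.1 h1 e], by linarith [tmo_lt h]⟩
  · exact Or.inl ⟨fun q => e (Or.inl ((V21_ne S.pos h1).1 q)), fun q => e (Or.inr ((V22_ne S.pos).1 q))⟩

theorem mem1 (h : m ∈ Dm k R) (h1 : m.1.2 ≠ 0) : V1 n k m ∈ Uv v a b (c - k ^ 2 / 2) := by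
  by_cases e : m.2 = 0 ∨ m.1.1 = 0
  · refine Or.inr (S.left _ ?_)
    have h2 := lt_tmo (m := sw m) S.pos h.1.sw h1 e
    have h3 := tmo_lt (Dm.sw h)
    rw [tmo_sw] at h2 h3
    rw [tm_V1 S.pos c h.1]
    exact ⟨by linarith, by linarith⟩
  · exact Or.inl ⟨fun q => e (Or.inr ((V22_ne (n := n) (m := sw m) S.pos).1 q)),
      fun q => e (Or.inl ((V21_ne (m := sw m) S.pos h1).1 q))⟩

open Classical in
/-- the model of the neighbourhood of the sphere -/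
def Ψ (m : C3) : X T v :=
  if m.1.1 = 0 then T.vtx v S.uni (c - k ^ 2 / 2) (V1 n k m) else T.vtx v S.uni' (c + k ^ 2 / 2) (V2 n k m)

theorem Ψ_2 (h : m.1.1 ≠ 0) : S.Ψ T m = T.vtx v S.uni' (c + k ^ 2 / 2) (V2 n k m) := if_neg h

theorem Ψ_1 (h : m ∈ Dm k R) (h2 : m.1.2 ≠ 0) : S.Ψ T m = T.vtx v S.uni (c - k ^ 2 / 2) (V1 n k m) := by
  by_cases h1 : m.1.1 = 0
  · exact if_pos h1
  have k1 : (V2 n k m).2 ≠ 0 := mt (V22_ne S.pos).1 h2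
  have k2 : (V1 n k m).1 ≠ 0 := mt (V22_ne (n := n) (m := sw m) S.pos).1 h1
  have m1 := hL_mem (S.mem2 h h1) k1
  rw [S.Ψ_2 T h1, T.vtx_eq_L _ (S.mem2 h h1) k1, T.vtx_eq_R _ (S.mem1 h h2) k2]
  apply T.nf_injective
  rw [T.nf_rod _ m1, T.nf_rod _ (hR_mem (S.mem1 h h2) k2)]
  refine (congrArg (fun t => T.Φr v b t _) S.sum).trans ?_
  rw [T.Φr_tw n m1, T.Φr_iv]
  congr 1
  have d1 : dir (V2 n k m).2 = _ := dir_V22 S.pos h2
  have d2 : dir (V1 n k m).1 = dir m.1.1 * (dir m.1.2)⁻¹ := dir_V22 (n := n) (m := sw m) S.pos h1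
  have n1 := norm_V22 (n := n) S.pos m
  have n2 : ‖(V1 n k m).1‖ = k * ch m.2 * ‖m.1.1‖ := norm_V22 (n := n) S.pos (sw m)
  have h3 : ((dir m.1.1 : Circle) : ℂ) ≠ 0 := Circle.coe_ne_zero _
  refine Prod.ext (Prod.ext ?_ ?_) ((tm_V2 S.pos c h.1).trans (tm_V1 S.pos c h.1).symm)
  · simp only [iv, tw, hL, hR, hyp, Prod.fst_swap, d1, d2, mul_inv, inv_inv, mul_comm]
  · simp only [iv, tw, hL, hR, hyp, Prod.fst_swap, Prod.snd_swap, d1, n1, n2]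
    simp only [V1, V2, sw, Prod.fst_swap, Prod.snd_swap, zpow_natCast, Circle.coe_pow, Circle.coe_mul,
      Circle.coe_inv, mul_pow, inv_pow]
    push_cast
    field_simp

theorem Ψ_act (l : Circle) (h : m ∈ Dm k R) : S.Ψ T (act n l m) = S.Ψ T m := by
  by_cases h1 : m.1.1 = 0
  · have h2 := h.1.ne h1
    rw [S.Ψ_1 T h h2, S.Ψ_1 T (Dm.act h l) (mul_ne_zero l.coe_ne_zero h2), V1_act l h2]
  · rw [S.Ψ_2 T h1, S.Ψ_2 T (m := act n l m) (mul_ne_zero l.coe_ne_zero h1), V2_act l h1]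

theorem time_Ψ (h : m ∈ Dm k R) : T.time v (S.Ψ T m) = c + tmo k m := by
  by_cases h1 : m.1.1 = 0
  · rw [S.Ψ_1 T h (h.1.ne h1), T.time_vtx _ (S.mem1 h (h.1.ne h1)), tm_V1 S.pos c h.1]
  · rw [S.Ψ_2 T h1, T.time_vtx _ (S.mem2 h h1), tm_V2 S.pos c h.1]

theorem yy_Ψ (h : m ∈ Dm k R) : T.yy v (S.Ψ T m) = 2 * ‖(V2 n k m).1‖ * ‖(V2 n k m).2‖ := by
  by_cases h1 : m.1.1 = 0
  · rw [S.Ψ_1 T h (h.1.ne h1), T.yy_vtx _ (S.mem1 h (h.1.ne h1)), yy_V1 S.pos]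
  · rw [S.Ψ_2 T h1, T.yy_vtx _ (S.mem2 h h1)]

theorem Ψ_mem_tor (h : m ∈ Dm k R) : S.Ψ T m ∈ T.tor v := by
  by_cases h1 : m.1.1 = 0
  · rw [S.Ψ_1 T h (h.1.ne h1)]
    exact T.vtx_mem_tor _ (S.mem1 h (h.1.ne h1))
  · rw [S.Ψ_2 T h1]
    exact T.vtx_mem_tor _ (S.mem2 h h1)

theorem rr_Ψ (h : m ∈ Dm k R) : T.rr v c (S.Ψ T m) ≤ k ^ 2 / 2 * (1 + 2 * ‖m.2‖ ^ 2) := by
  rw [Tb.rr, S.time_Ψ T h, S.yy_Ψ T h, add_sub_cancel_left]
  exact Real.sqrt_le_iff.2 ⟨by positivity, rad_le S.pos h.1⟩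

/-- the fibres of `Ψ` are the orbits -/
theorem orbit (h : m ∈ Dm k R) (h' : m' ∈ Dm k R) (e : S.Ψ T m = S.Ψ T m') : ∃ l, m' = act n l m := by
  have key : ∀ d d' : Circle, act n d⁻¹ m = act n d'⁻¹ m' → ∃ l, m' = act n l m := fun d d' q =>
    ⟨d' * d⁻¹, by rw [← act_act, q, act_act, mul_inv_cancel, act_one]⟩
  have t : tmo k m = tmo k m' := add_left_cancel
    ((S.time_Ψ T h).symm.trans ((congrArg _ e).trans (S.time_Ψ T h')))
  have pos : ∀ {y : C3}, Un y → y.1.2 = 0 → 0 < tmo k y := fun {y} q1 q2 => by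
    have := tmo_neg (m := sw y) S.pos q1.sw q2
    rwa [tmo_sw, neg_lt_zero] at this
  by_cases h1 : m.1.1 ≠ 0 ∧ m'.1.1 ≠ 0
  · rw [S.Ψ_2 T h1.1, S.Ψ_2 T h1.2] at e
    have := (T.vtx v _ _).injOn (S.mem2 h h1.1) (S.mem2 h' h1.2) e
    exact key _ _ ((s2_V2 S.pos h.1 h1.1).symm.trans ((congrArg _ this).trans (s2_V2 S.pos h'.1 h1.2)))
  · have h2 : m.1.2 ≠ 0 ∧ m'.1.2 ≠ 0 := by
      rcases not_and_or.1 h1 with q | q <;> rw [not_not] at q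
      · exact ⟨h.1.ne q, fun q' => by linarith [tmo_neg S.pos h.1 q, pos h'.1 q']⟩
      · exact ⟨fun q' => by linarith [tmo_neg S.pos h'.1 q, pos h.1 q'], h'.1.ne q⟩
    rw [S.Ψ_1 T h h2.1, S.Ψ_1 T h' h2.2] at e
    have := (T.vtx v _ _).injOn (S.mem1 h h2.1) (S.mem1 h' h2.2) e
    exact key _ _ ((s1_V1 S.pos h.1 h2.1).symm.trans ((congrArg _ this).trans (s1_V1 S.pos h'.1 h2.2)))

theorem smD : SmD (𝓡 4) (Dm k R) (S.Ψ T) := fun m h => by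
  by_cases h1 : m.1.1 = 0
  · have h2 := h.1.ne h1
    refine ⟨_, (ld_pd (T.vtx v S.uni _) (S.mem1 h h2)).contMDiffAt.comp m
      (contDiffAt_V1 n k h2).contMDiffAt, ?_⟩
    filter_upwards [(isOpen_ne.preimage (continuous_snd.comp continuous_fst)).mem_nhds h2] with y q1 q2
    exact S.Ψ_1 T q2 q1
  · refine ⟨_, (ld_pd (T.vtx v S.uni' _) (S.mem2 h h1)).contMDiffAt.comp m
      (contDiffAt_V2 n k h1).contMDiffAt, ?_⟩
    filter_upwards [(isOpen_ne.preimage (continuous_fst.comp continuous_fst)).mem_nhds h1] with y q1 _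
    exact S.Ψ_2 T q1

theorem sec2 (h : m ∈ Dm k R) (h1 : m.1.1 ≠ 0) : ContDiffAt ℝ ∞ (s2 k) (V2 n k m) ∧
    ∀ᶠ Z in 𝓝 (V2 n k m), s2 k Z ∈ Dm k R ∧ (s2 k Z).1.1 ≠ 0 ∧ V2 n k (s2 k Z) = Z := by
  have h2 : 0 < pp k (V2 n k m) := by rw [pp_V2 S.pos h.1]; positivity
  have h3 := contDiffAt_s2 S.pos h2
  have h4 : ContinuousAt (fun Z => k ^ 2 / 2 * (1 + 2 * ‖(s2 k Z).2‖ ^ 2)) (V2 n k m) :=
    continuousAt_const.mul (continuousAt_const.add (continuousAt_const.mul (h3.continuousAt.snd.norm.pow 2)))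
  refine ⟨h3, ?_⟩
  filter_upwards [(continuous_pp k).continuousAt.eventually (lt_mem_nhds h2),
    h4.eventually (gt_mem_nhds (by rw [s2_V2 S.pos h.1 h1]; exact (Dm.act h _).2 :
      k ^ 2 / 2 * (1 + 2 * ‖(s2 k (V2 n k m)).2‖ ^ 2) < R))] with Z q1 q2
  exact ⟨⟨un_s2 S.pos q1, q2⟩, s2_ne q1, V2_s2 S.pos q1⟩

/-- smooth local sections -/
theorem sec (h : m ∈ Dm k R) : ∃ s : X T v → C3, ContMDiffAt (𝓡 4) 𝓘(ℝ, C3) ∞ s (S.Ψ T m) ∧
    ∀ᶠ x in 𝓝 (S.Ψ T m), s x ∈ Dm k R ∧ S.Ψ T (s x) = x := by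
  have key : ∀ (φ : ℂ × ℂ → X T v) (Z : ℂ × ℂ) (s : ℂ × ℂ → C3), IsLocalDiffeomorphAt IV (𝓡 4) ∞ φ Z →
      ContDiffAt ℝ ∞ s Z → (∀ᶠ W in 𝓝 Z, s W ∈ Dm k R ∧ S.Ψ T (s W) = φ W) →
      ∃ s : X T v → C3, ContMDiffAt (𝓡 4) 𝓘(ℝ, C3) ∞ s (φ Z) ∧
        ∀ᶠ x in 𝓝 (φ Z), s x ∈ Dm k R ∧ S.Ψ T (s x) = x := by
    intro φ Z s h1 h2 h3
    have h0 : h1.localInverse (φ Z) = Z := h1.localInverse_left_inv h1.localInverse_mem_target
    have c := h1.localInverse_contMDiffAt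
    refine ⟨s ∘ h1.localInverse, ContMDiffAt.comp _ (by rw [h0]; exact h2.contMDiffAt) c, ?_⟩
    filter_upwards [c.continuousAt.eventually (h0.symm ▸ h3), h1.localInverse_eventuallyEq_right] with x q1 q2
    exact ⟨q1.1, q1.2.trans q2⟩
  by_cases h1 : m.1.1 = 0
  · have h2 := h.1.ne h1
    obtain ⟨q1, q2⟩ := S.sec2 (Dm.sw h) h2
    have sc : Tendsto Prod.swap (𝓝 (V1 n k m)) (𝓝 (V2 n k (sw m))) := continuous_swap.continuousAt
    rw [S.Ψ_1 T h h2]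
    refine key _ _ (s1 k) (ld_pd _ (S.mem1 h h2)) (contDiff_sw.contDiffAt.comp _
      (ContDiffAt.comp (V1 n k m) q1 (contDiffAt_snd.prodMk contDiffAt_fst))) ?_
    filter_upwards [sc.eventually q2] with W q
    refine ⟨Dm.sw q.1, ?_⟩
    exact (S.Ψ_1 T (Dm.sw q.1) q.2.1).trans (congrArg _ (congrArg Prod.swap q.2.2))
  · obtain ⟨q1, q2⟩ := S.sec2 h h1
    rw [S.Ψ_2 T h1]
    refine key _ _ (s2 k) (ld_pd _ (S.mem2 h h1)) q1 (q2.mono fun W q => ⟨q.1, ?_⟩)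
    rw [S.Ψ_2 T q.2.1, q.2.2]

theorem isOpen_image : IsOpen (S.Ψ T '' Dm k R) := isOpen_iff_mem_nhds.2 <| by
  rintro _ ⟨m, h, rfl⟩
  obtain ⟨s, -, hs⟩ := S.sec T h
  exact hs.mono fun x q => ⟨_, q.1, q.2⟩

open Classical in
/-- descent of an invariant function -/
def dsc {Z : Type*} (F : C3 → Z) (d : X T v → Z) (x : X T v) : Z :=
  if h : x ∈ S.Ψ T '' Dm k R then F h.choose else d x

theorem dsc_Ψ {Z : Type*} {F : C3 → Z} (d : X T v → Z) (hF : ∀ l, ∀ m ∈ Dm k R, F (act n l m) = F m)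
    (h : m ∈ Dm k R) : S.dsc T F d (S.Ψ T m) = F m := by
  have q : S.Ψ T m ∈ S.Ψ T '' Dm k R := ⟨m, h, rfl⟩
  obtain ⟨l, e⟩ := S.orbit T h q.choose_spec.1 q.choose_spec.2.symm
  rw [dsc, dif_pos q, e, hF l m h]

theorem dsc_not {Z : Type*} (F : C3 → Z) (d : X T v → Z) {x : X T v} (h : x ∉ S.Ψ T '' Dm k R) :
    S.dsc T F d x = d x := dif_neg h

/-- the compact core `‖w‖² ≤ ρ` -/
def K (ρ : ℝ) : Set (X T v) := S.Ψ T '' {m | Un m ∧ ‖m.2‖ ^ 2 ≤ ρ}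

theorem K_dom (hr : r < R) : {m : C3 | Un m ∧ ‖m.2‖ ^ 2 ≤ rh k r} ⊆ Dm k R :=
  fun _ h => ⟨h.1, ((le_rh S.pos).1 h.2).trans_lt hr⟩

theorem isCompact_K (hr : r < R) : IsCompact (S.K T (rh k r)) :=
  (Tau19.isCompact_K _).image_of_continuousOn ((S.smD T).continuousOn.mono (S.K_dom hr))

theorem K_subset (hr : r < R) : S.K T (rh k r) ⊆ T.disc v c (Iic r) := by
  rintro _ ⟨m, h, rfl⟩
  exact ⟨S.Ψ_mem_tor T (S.K_dom hr h), (S.rr_Ψ T (S.K_dom hr h)).trans ((le_rh S.pos).1 h.2)⟩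

theorem Ψ_mem_K (hr : r < R) (h : m ∈ Dm k R) : S.Ψ T m ∈ S.K T (rh k r) ↔ ‖m.2‖ ^ 2 ≤ rh k r := by
  refine ⟨fun ⟨y, h1, h2⟩ => ?_, fun q => ⟨m, ⟨h.1, q⟩, rfl⟩⟩
  obtain ⟨l, rfl⟩ := S.orbit T (S.K_dom hr h1) h h2
  rw [norm_act3]
  exact h1.2

theorem dsc_off {Z : Type*} {F : C3 → Z} {d : X T v → Z} (hF : ∀ l, ∀ m ∈ Dm k R, F (act n l m) = F m)
    (hd : ∀ m ∈ Dm k R, ρ < ‖m.2‖ ^ 2 → F m = d (S.Ψ T m)) {x : X T v} (hx : x ∉ S.K T ρ) :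
    S.dsc T F d x = d x := by
  by_cases h : x ∈ S.Ψ T '' Dm k R
  · obtain ⟨m, h, rfl⟩ := h
    rw [S.dsc_Ψ T d hF h, hd m h (lt_of_not_ge fun q => hx ⟨m, ⟨h.1, q⟩, rfl⟩)]
  · exact S.dsc_not T F d h

section Sm

variable {E' H' M' : Type*} [NormedAddCommGroup E'] [NormedSpace ℝ E'] [TopologicalSpace H']
  {J : ModelWithCorners ℝ E' H'} [TopologicalSpace M'] [ChartedSpace H' M'] {F : C3 → M'} {d : X T v → M'}

theorem cm_dsc (hF : ∀ l, ∀ m ∈ Dm k R, F (act n l m) = F m) (hs : SmD J (Dm k R) F) (h : m ∈ Dm k R) :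
    ContMDiffAt (𝓡 4) J ∞ (S.dsc T F d) (S.Ψ T m) := by
  obtain ⟨s, h1, h2⟩ := S.sec T h
  refine (hs.cm h1 (h2.mono fun _ q => q.1)).congr_of_eventuallyEq (h2.mono fun x q => ?_)
  exact (congrArg _ q.2).symm.trans (S.dsc_Ψ T d hF q.1)

theorem cm_dsc' (hr : r < R) (hF : ∀ l, ∀ m ∈ Dm k R, F (act n l m) = F m) (hs : SmD J (Dm k R) F)
    (hd : ∀ m ∈ Dm k R, rh k r < ‖m.2‖ ^ 2 → F m = d (S.Ψ T m)) {x : X T v}
    (hx : x ∉ S.K T (rh k r) → ContMDiffAt (𝓡 4) J ∞ d x) : ContMDiffAt (𝓡 4) J ∞ (S.dsc T F d) x := by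
  by_cases h : x ∈ S.K T (rh k r)
  · obtain ⟨m, h, rfl⟩ := h
    exact S.cm_dsc T hF hs (S.K_dom hr h)
  · refine (hx h).congr_of_eventuallyEq ?_
    filter_upwards [(S.isCompact_K T hr).isClosed.isOpen_compl.mem_nhds h] with y hy
    exact S.dsc_off T hF hd hy

end Sm

/-- the twist as a map -/
def tf (e : ℕ) (ρ ε : ℝ) : X T v → X T v := S.dsc T (fun m => S.Ψ T (tt e ρ ε m)) id

theorem tf_inv (hn : n * e = 2) (hρ : 0 < ρ) (hε : ε * ε = 1) (l : Circle) (m : C3) (h : m ∈ Dm k R) :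
    S.Ψ T (tt e ρ ε (act n l m)) = S.Ψ T (tt e ρ ε m) := by
  rw [tt_act hn, S.Ψ_act T _ (Dm.tt hρ hε h)]

theorem tf_Ψ (hn : n * e = 2) (hρ : 0 < ρ) (hε : ε * ε = 1) (h : m ∈ Dm k R) :
    S.tf T e ρ ε (S.Ψ T m) = S.Ψ T (tt e ρ ε m) := S.dsc_Ψ T id (S.tf_inv T hn hρ hε) h

theorem tf_large (hn : n * e = 2) (hρ : 0 < ρ) (m : C3) (h : m ∈ Dm k R) (q : ρ < ‖m.2‖ ^ 2) :
    S.Ψ T (tt e ρ ε m) = id (S.Ψ T m) := by rw [tt_large hn hρ q.le, S.Ψ_act T _ h, id]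

theorem tf_off (hn : n * e = 2) (hρ : 0 < ρ) (hε : ε * ε = 1) {x : X T v} (hx : x ∉ S.K T ρ) :
    S.tf T e ρ ε x = x := S.dsc_off T (S.tf_inv T hn hρ hε) (S.tf_large T hn hρ) hx

theorem tf_tf (hn : n * e = 2) (hρ : 0 < ρ) (hε : ε * ε = 1) (x : X T v) :
    S.tf T e ρ (-ε) (S.tf T e ρ ε x) = x := by
  by_cases h : x ∈ S.Ψ T '' Dm k R
  · obtain ⟨m, h, rfl⟩ := h
    rw [S.tf_Ψ T hn hρ hε h, S.tf_Ψ T hn hρ (by rw [neg_mul_neg, hε]) (Dm.tt hρ hε h), tt_tt hρ hε]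
  · rw [show S.tf T e ρ ε x = x from S.dsc_not T _ _ h]
    exact S.dsc_not T _ _ h

theorem contMDiff_tf (hn : n * e = 2) (h1 : k ^ 2 / 2 < r) (h2 : r < R) (hε : ε * ε = 1) :
    ContMDiff (𝓡 4) (𝓡 4) ∞ (S.tf T e (rh k r) ε) := fun _ =>
  have hρ := rh_pos S.pos h1
  S.cm_dsc' T h2 (S.tf_inv T hn hρ hε) ((S.smD T).comp (contDiff_tt e hρ ε) fun _ => Dm.tt hρ hε)
    (S.tf_large T hn hρ) fun _ => contMDiffAt_id

/-- **the twist**: the Dehn twist (`n = 2`, `e = 1`), the reflection in an exceptional sphere (`n = 1`, `e = 2`) -/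
def tau (hn : n * e = 2) (hr : r ∈ Ioo (k ^ 2 / 2) R) : X T v ≃ₘ^∞⟮𝓡 4, 𝓡 4⟯ X T v :=
  diffeoOf (S.tf T e (rh k r) 1) (S.tf T e (rh k r) (-1)) (S.contMDiff_tf T hn hr.1 hr.2 (one_mul 1))
    (S.contMDiff_tf T hn hr.1 hr.2 (by norm_num)) (S.tf_tf T hn (rh_pos S.pos hr.1) (one_mul 1))
    fun x => by simpa using S.tf_tf T hn (rh_pos S.pos hr.1) (ε := -1) (by norm_num) x

variable (hn : n * e = 2) (hr : r ∈ Ioo (k ^ 2 / 2) R)

theorem tau_Ψ (h : m ∈ Dm k R) : S.tau T hn hr (S.Ψ T m) = S.Ψ T (tt e (rh k r) 1 m) :=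
  S.tf_Ψ T hn (rh_pos S.pos hr.1) (one_mul 1) h

theorem tau_symm_Ψ (h : m ∈ Dm k R) : (S.tau T hn hr).symm (S.Ψ T m) = S.Ψ T (tt e (rh k r) (-1) m) :=
  S.tf_Ψ T hn (rh_pos S.pos hr.1) (by norm_num) h

theorem tau_off {x : X T v} (hx : x ∉ S.K T (rh k r)) : S.tau T hn hr x = x :=
  S.tf_off T hn (rh_pos S.pos hr.1) (one_mul 1) hx

theorem tau_off_disc {x : X T v} (hx : x ∉ T.disc v c (Iic r)) : S.tau T hn hr x = x :=
  S.tau_off T hn hr fun q => hx (S.K_subset T hr.2 q)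

theorem tau_mem_K {x : X T v} : S.tau T hn hr x ∈ S.K T (rh k r) ↔ x ∈ S.K T (rh k r) := by
  refine ⟨fun h => by_contra fun q => q (S.tau_off T hn hr q ▸ h), fun h => by_contra fun q => ?_⟩
  exact q (((S.tau T hn hr).injective (S.tau_off T hn hr q)).symm ▸ h)

/-- a set that contains the core or is disjoint from it is preserved -/
theorem tau_mem {A : Set (X T v)} (hA : S.K T (rh k r) ⊆ A ∨ Disjoint (S.K T (rh k r)) A) {x : X T v} :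
    S.tau T hn hr x ∈ A ↔ x ∈ A := by
  by_cases h : x ∈ S.K T (rh k r)
  · have h' := (S.tau_mem_K T hn hr).2 h
    rcases hA with q | q
    · exact iff_of_true (q h') (q h)
    · exact iff_of_false (disjoint_left.1 q h') (disjoint_left.1 q h)
  · rw [S.tau_off T hn hr h]

end Sph

end Crest.Agent.X212.Tau19
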