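import Crest.Agent.X212.Tau19.Tau
import Crest.Agent.X212.Line51.Chi

/-!
# X212 / Tau19, part Lin (helper19): lines under the twist

* `S.Eqv T p μ E` : `E` is a unit section of `Ψ^* p` of weight `μ`; `exists_uni` : lines of weights `μ`, `-μ`;
* `S.Fr2 T p μ s₁ s₂` : frames over the two vertex charts;
* `exists_uni_tor` : the version with characters (toric frames off the axis).
-/

set_option autoImplicit false
set_option linter.unusedSectionVars false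

open Set Filter Topology Function Matrix
open scoped ContDiff Manifold ComplexConjugate

noncomputable section

namespace Crest.Agent.X212.Tau19

open Crest.Agent.X212.Glue52 Crest.Agent.X212.Pj41
open Crest.Agent.X212.Rod53 hiding Uni
open Crest.Agent.X212.Line51 hiding dual

variable {EN HN : Type} [NormedAddCommGroup EN] [NormedSpace ℝ EN] [FiniteDimensional ℝ EN]
  [TopologicalSpace HN] {IN : ModelWithCorners ℝ EN HN} [IN.Boundaryless]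
  {N : Type} [TopologicalSpace N] [ChartedSpace HN N] [IsManifold IN ∞ N] [T2Space N]
  {κ l : Type*} [Fintype κ] [Fintype l] {n e : ℕ} {k R r : ℝ} {m : C3}

theorem piso_smul {u : Matrix l κ ℂ} {p : Matrix κ κ ℂ} {q : Matrix l l ℂ} (h : PIso u p q) (g : Circle) :
    PIso ((g : ℂ) • u) p q := by
  have e : star (g : ℂ) * g = 1 := by
    rw [Complex.star_def, ← Circle.coe_inv_eq_conj, ← Circle.coe_mul, inv_mul_cancel, Circle.coe_one]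
  exact ⟨by rw [conjTranspose_smul, Matrix.smul_mul, Matrix.mul_smul, smul_smul, e, one_smul, h.src],
    by rw [conjTranspose_smul, Matrix.smul_mul, Matrix.mul_smul, smul_smul, mul_comm, e, one_smul, h.tgt],
    by rw [Matrix.smul_mul, h.idem]⟩

theorem ct_smul (g : Circle) (u : Matrix l κ ℂ) : ((g : ℂ) • u)ᴴ = ((g⁻¹ : Circle) : ℂ) • uᴴ := by
  rw [conjTranspose_smul, Complex.star_def, Circle.coe_inv_eq_conj]

theorem csmul_smul (g h : Circle) (u : Matrix l κ ℂ) :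
    (g : ℂ) • (h : ℂ) • u = ((g * h : Circle) : ℂ) • u := by rw [smul_smul, Circle.coe_mul]

theorem smul_mul_ct {j : Type*} [Fintype j] (g h : Circle) (u : Matrix l j ℂ) (w : Matrix κ j ℂ) :
    ((g : ℂ) • u) * ((h : ℂ) • w)ᴴ = ((g * h⁻¹ : Circle) : ℂ) • (u * wᴴ) := by
  rw [ct_smul, Matrix.smul_mul, Matrix.mul_smul, csmul_smul]

namespace Sph

variable {v : ℝ → Z2} {a b a' : Z2} {c : ℝ} (S : Sph v a b a' n c k R) (T : Tb IN N)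

/-- an equivariant unit section of weight `μ` -/
structure Eqv (p : X T v → Matrix κ κ ℂ) (μ : ℤ) (E : C3 → Matrix κ Unit ℂ) : Prop where
  sm : ∀ i j, SmD 𝓘(ℝ, ℂ) (Dm k R) fun m => E m i j
  iso : ∀ m ∈ Dm k R, PIso (E m) 1 (p (S.Ψ T m))
  wt : ∀ l, ∀ m ∈ Dm k R, E (act n l m) = ((l ^ μ : Circle) : ℂ) • E m

variable {p : X T v → Matrix κ κ ℂ} {q : X T v → Matrix l l ℂ} {μ : ℤ}

/-- **lines of opposite weights are exchanged by the twist** -/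
theorem exists_uni (hn : n * e = 2) (hr : r ∈ Ioo (k ^ 2 / 2) R) {E : C3 → Matrix κ Unit ℂ}
    {E' : C3 → Matrix l Unit ℂ} (hE : S.Eqv T p μ E) (hE' : S.Eqv T q (-μ) E') {O : Set (X T v)}
    {u : X T v → Matrix κ l ℂ} (hu : Uni (𝓡 4) q p u (O \ S.K T (rh k r)))
    (he : ∀ m ∈ Dm k R, rh k r < ‖m.2‖ ^ 2 →
      u (S.Ψ T m) = (((dir m.2 ^ e) ^ μ : Circle) : ℂ) • (E m * (E' m)ᴴ)) :
    ∃ U, Uni (𝓡 4) q (fun x => p (S.tau T hn hr x)) U O ∧ ∀ x ∉ S.K T (rh k r), U x = u x := by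
  have hρ := rh_pos S.pos hr.1
  have h1 : (1 : ℝ) * 1 = 1 := one_mul 1
  have hF : ∀ l, ∀ m ∈ Dm k R, E (tt e (rh k r) 1 (act n l m)) * (E' (act n l m))ᴴ =
      E (tt e (rh k r) 1 m) * (E' m)ᴴ := fun l m h => by
    rw [tt_act hn, hE.wt _ _ (Dm.tt hρ h1 h), hE'.wt _ _ h, smul_mul_ct]
    simp
  have hd : ∀ m ∈ Dm k R, rh k r < ‖m.2‖ ^ 2 → E (tt e (rh k r) 1 m) * (E' m)ᴴ = u (S.Ψ T m) :=
    fun m h hm => by rw [tt_large hn hρ hm.le, hE.wt _ _ h, he m h hm, Matrix.smul_mul]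
  have off := fun x => S.dsc_off T (d := u) hF hd (x := x)
  refine ⟨_, ⟨fun x hx => ?_, fun x hx => ?_⟩, off⟩ <;> by_cases h : x ∈ S.K T (rh k r)
  · obtain ⟨m, h, rfl⟩ := h
    obtain ⟨s, s1, s2⟩ := S.sec T (S.K_dom hr.2 h)
    have s3 := s2.mono fun _ t => t.1
    have k1 : MSm (𝓡 4) (fun y => E (tt e (rh k r) 1 (s y))) (S.Ψ T m) := fun i j =>
      ((hE.sm i j).comp (contDiff_tt e hρ 1) fun _ => Dm.tt hρ h1).cm s1 s3
    have k2 : MSm (𝓡 4) (fun y => E' (s y)) (S.Ψ T m) := fun i j => (hE'.sm i j).cm s1 s3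
    exact (k1.mul k2.ct).congr (s2.mono fun y t => (congrArg _ t.2).symm.trans (S.dsc_Ψ T u hF t.1))
  · exact (hu.sm x ⟨hx, h⟩).congr
      (eventually_of_mem ((S.isCompact_K T hr.2).isClosed.isOpen_compl.mem_nhds h) off)
  · obtain ⟨m, h, rfl⟩ := h
    have hm := S.K_dom hr.2 h
    rw [S.dsc_Ψ T u hF hm, S.tau_Ψ T hn hr hm]
    exact (hE'.iso m hm).symm.trans (hE.iso _ (Dm.tt hρ h1 hm))
  · rw [off x h, S.tau_off T hn hr h]
    exact hu.iso x ⟨hx, h⟩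

/-- frames over the two vertex charts with transition function `(z₂ / z₁) ^ μ` -/
structure Fr2 (p : X T v → Matrix κ κ ℂ) (μ : ℤ) (s₁ s₂ : X T v → Matrix κ Unit ℂ) : Prop where
  f1 : ∀ m ∈ Dm k R, m.1.2 ≠ 0 → MSm (𝓡 4) s₁ (S.Ψ T m) ∧ PIso (s₁ (S.Ψ T m)) 1 (p (S.Ψ T m))
  f2 : ∀ m ∈ Dm k R, m.1.1 ≠ 0 → MSm (𝓡 4) s₂ (S.Ψ T m) ∧ PIso (s₂ (S.Ψ T m)) 1 (p (S.Ψ T m))
  tr : ∀ m ∈ Dm k R, m.1.1 ≠ 0 → m.1.2 ≠ 0 →
    s₂ (S.Ψ T m) = (((dir m.1.2 * (dir m.1.1)⁻¹) ^ μ : Circle) : ℂ) • s₁ (S.Ψ T m)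

open Classical in
/-- the equivariant section of a pair of frames -/
def eqs (μ : ℤ) (s₁ s₂ : X T v → Matrix κ Unit ℂ) (m : C3) : Matrix κ Unit ℂ :=
  if m.1.1 = 0 then ((dir m.1.2 ^ μ : Circle) : ℂ) • s₁ (S.Ψ T m)
  else ((dir m.1.1 ^ μ : Circle) : ℂ) • s₂ (S.Ψ T m)

variable {s₁ s₂ : X T v → Matrix κ Unit ℂ}

theorem eqs_2 (h : m.1.1 ≠ 0) : S.eqs T μ s₁ s₂ m = ((dir m.1.1 ^ μ : Circle) : ℂ) • s₂ (S.Ψ T m) := if_neg h

variable {S T}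

theorem Fr2.eqs_1 (F : S.Fr2 T p μ s₁ s₂) (hm : m ∈ Dm k R) (h : m.1.2 ≠ 0) :
    S.eqs T μ s₁ s₂ m = ((dir m.1.2 ^ μ : Circle) : ℂ) • s₁ (S.Ψ T m) := by
  by_cases h1 : m.1.1 = 0
  · exact if_pos h1
  · rw [S.eqs_2 T h1, F.tr m hm h1 h, csmul_smul, ← mul_zpow, mul_comm, inv_mul_cancel_right]

theorem Fr2.eqv (F : S.Fr2 T p μ s₁ s₂) : S.Eqv T p μ (S.eqs T μ s₁ s₂) := by
  have key : ∀ (f : C3 → ℂ) (s : X T v → Matrix κ Unit ℂ) (m : C3), m ∈ Dm k R → ContDiff ℝ ∞ f → f m ≠ 0 →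
      MSm (𝓡 4) s (S.Ψ T m) → (∀ y ∈ Dm k R, f y ≠ 0 →
        S.eqs T μ s₁ s₂ y = ((dir (f y) ^ μ : Circle) : ℂ) • s (S.Ψ T y)) → ∀ i j,
      ∃ g, ContMDiffAt 𝓘(ℝ, C3) 𝓘(ℝ, ℂ) ∞ g m ∧ ∀ᶠ y in 𝓝 m, y ∈ Dm k R → S.eqs T μ s₁ s₂ y i j = g y := by
    intro f s m hm hf h0 hs he i j
    obtain ⟨g, g1, g2⟩ := S.smD T m hm
    refine ⟨fun y => ((dir (f y) ^ μ : Circle) : ℂ) * s (g y) i j,
      cm_mul (cd_dir hf.contDiffAt h0 μ).contMDiffAt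
        (ContMDiffAt.comp m (g := fun x => s x i j) (g2.self_of_nhds hm ▸ hs i j) g1), ?_⟩
    filter_upwards [g2, hf.continuous.continuousAt.eventually_ne h0] with y h1 h2 h3
    rw [he y h3 h2, h1 h3]
    rfl
  have dl : ∀ (l : Circle) {z : ℂ}, z ≠ 0 → dir (l * z) = l * dir z := fun l z h => by
    rw [mul_comm, dir_mul_circle h, mul_comm]
  refine ⟨fun i j m hm => ?_, fun m hm => ?_, fun l m hm => ?_⟩ <;> by_cases h : m.1.1 = 0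
  · exact key (fun y => y.1.2) s₁ m hm contDiff_snd.fst' (hm.1.ne h) (F.f1 m hm (hm.1.ne h)).1
      (fun y h1 h2 => F.eqs_1 h1 h2) i j
  · exact key (fun y => y.1.1) s₂ m hm contDiff_fst.fst' h (F.f2 m hm h).1 (fun y _ h2 => S.eqs_2 T h2) i j
  · rw [F.eqs_1 hm (hm.1.ne h)]
    exact piso_smul (F.f1 m hm (hm.1.ne h)).2 _
  · rw [S.eqs_2 T h]
    exact piso_smul (F.f2 m hm h).2 _
  · have h2 := hm.1.ne h
    rw [F.eqs_1 hm h2, F.eqs_1 (Dm.act hm l) (mul_ne_zero l.coe_ne_zero h2), S.Ψ_act T l hm, csmul_smul,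
      ← mul_zpow, ← dl l h2]
    rfl
  · rw [S.eqs_2 T h, S.eqs_2 T (m := act n l m) (mul_ne_zero l.coe_ne_zero h), S.Ψ_act T l hm, csmul_smul,
      ← mul_zpow, ← dl l h]
    rfl

variable (S T)

theorem Ψ_mem_off (hm : m ∈ Dm k R) : S.Ψ T m ∈ off T v ↔ m.1.1 ≠ 0 ∧ m.1.2 ≠ 0 ∧ m.2 ≠ 0 := by
  by_cases h : m.1.1 = 0
  · rw [S.Ψ_1 T hm (hm.1.ne h), vtx_mem_off _ (S.mem1 hm (hm.1.ne h))]
    exact iff_of_false (fun t => t.1 ((V22_ne (n := n) (m := sw m) S.pos).2 h)) fun t => t.1 h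
  · rw [S.Ψ_2 T h, vtx_mem_off _ (S.mem2 hm h), Ne, Ne, V21_ne S.pos h, V22_ne S.pos]
    tauto

theorem dir_V21 (hk : 0 < k) (h : m.1.1 ≠ 0) (h' : m.2 ≠ 0) :
    dir (V2 n k m).1 = dir m.1.1 ^ n * dir m.2 := by
  have e : (V2 n k m).1 = ((k * ‖m.1.1‖ : ℝ) : ℂ) * (m.2 * (dir m.1.1 ^ n : Circle)) := by
    simp only [V2]
    push_cast
    ring
  rw [e, dir_pos_mul (mul_pos hk (norm_pos_iff.2 h)), dir_mul_circle h', mul_comm]

include S in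
theorem dot_sum (η : Z2) : dot η a + dot η a' = n * dot η b := by
  rw [S.sum]
  simp only [dot, Prod.fst_add, Prod.snd_add, Prod.fst_neg, Prod.snd_neg, Prod.smul_fst, Prod.smul_snd,
    smul_eq_mul]
  ring

/-- the characters in the model -/
theorem chi_Ψ (η : Z2) (h1 : m.1.1 ≠ 0) (h2 : m.1.2 ≠ 0) (h3 : m.2 ≠ 0) : chi T v η (S.Ψ T m) =
    dir m.1.1 ^ dot η a * dir m.1.2 ^ dot η a' * dir m.2 ^ dot η b := by
  rw [S.Ψ_2 T h1, chi_vtx _ (mt (V21_ne S.pos h1).1 h3) (mt (V22_ne S.pos).1 h2), dir_V21 S.pos h1 h3,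
    dir_V22 S.pos h2, eq_sub_of_add_eq (S.dot_sum η), mul_zpow, mul_zpow, ← zpow_natCast,
    ← _root_.zpow_mul, _root_.zpow_sub, _root_.inv_zpow]
  ac_rfl

/-- an identity that holds off the axis holds everywhere -/
theorem eq_of_off {Z : Type*} [TopologicalSpace Z] [T2Space Z] {f g : C3 → Z} (hm : m ∈ Dm k R)
    (hf : ContinuousWithinAt f (Dm k R) m) (hg : ContinuousWithinAt g (Dm k R) m)
    (h : ∀ᶠ y in 𝓝 m, y ∈ Dm k R → S.Ψ T y ∈ off T v → f y = g y) : f m = g m := by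
  obtain ⟨s, s1, s2⟩ := S.sec T hm
  obtain ⟨l, hl⟩ := S.orbit T s2.self_of_nhds.1 hm s2.self_of_nhds.2
  have c0 : ContinuousAt (fun x => act n l (s x)) (S.Ψ T m) :=
    ContinuousAt.comp (g := act n l) (by unfold act; fun_prop) s1.continuousAt
  have c1 : Tendsto (fun x => act n l (s x)) (𝓝 (S.Ψ T m)) (𝓝 m) := by
    rw [ContinuousAt, ← hl] at c0
    exact c0
  have c2 : Tendsto (fun x => act n l (s x)) (𝓝 (S.Ψ T m)) (𝓝[Dm k R] m) :=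
    tendsto_nhdsWithin_iff.2 ⟨c1, s2.mono fun _ t => Dm.act t.1 l⟩
  refine tendsto_nhds_unique_of_frequently_eq (hf.tendsto.comp c2) (hg.tendsto.comp c2)
    (((mem_closure_iff_frequently.1 (dense_off _)).and_eventually (s2.and (c1.eventually h))).mono
      fun x t => t.2.2 (Dm.act t.2.1.1 l) ?_)
  rw [S.Ψ_act T l t.2.1.1, t.2.1.2]
  exact t.1

/-- the region of the left vertex chart -/
def O1 : Set (X T v) := S.Ψ T '' {m | m ∈ Dm k R ∧ m.1.2 ≠ 0}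

/-- the region of the right vertex chart -/
def O2 : Set (X T v) := S.Ψ T '' {m | m ∈ Dm k R ∧ m.1.1 ≠ 0}

theorem isOpen_O {f : C3 → ℂ} (hf : Continuous f) (h : ∀ l m, f (act n l m) = l * f m) :
    IsOpen (S.Ψ T '' {m | m ∈ Dm k R ∧ f m ≠ 0}) := isOpen_iff_mem_nhds.2 <| by
  rintro _ ⟨m, hm, rfl⟩
  obtain ⟨s, s1, s2⟩ := S.sec T hm.1
  obtain ⟨l, hl⟩ := S.orbit T hm.1 s2.self_of_nhds.1 s2.self_of_nhds.2.symm
  have h0 : f (s (S.Ψ T m)) ≠ 0 := by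
    rw [hl, h]
    exact mul_ne_zero l.coe_ne_zero hm.2
  filter_upwards [s2, (hf.continuousAt.comp s1.continuousAt).eventually_ne h0] with x t1 t2
  exact ⟨s x, ⟨t1.1, t2⟩, t1.2⟩

theorem isOpen_O1 : IsOpen (S.O1 T) := S.isOpen_O T (by fun_prop) fun _ _ => rfl
theorem isOpen_O2 : IsOpen (S.O2 T) := S.isOpen_O T (by fun_prop) fun _ _ => rfl

theorem time_O1 {x : X T v} (h : x ∈ S.O1 T) (h' : x ∉ off T v) :
    T.time v x ∈ Ioo (c - R) (c + k ^ 2 / 2) := by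
  obtain ⟨m, ⟨hm, h2⟩, rfl⟩ := h
  rw [S.Ψ_mem_off T hm] at h'
  have h3 := lt_tmo (m := sw m) S.pos hm.1.sw h2 (by
    by_contra t
    exact h' ⟨fun e => t (Or.inr e), h2, fun e => t (Or.inl e)⟩)
  have h4 := tmo_lt (Dm.sw hm)
  rw [tmo_sw] at h3 h4
  rw [S.time_Ψ T hm]
  constructor <;> linarith

theorem time_O2 {x : X T v} (h : x ∈ S.O2 T) (h' : x ∉ off T v) :
    T.time v x ∈ Ioo (c - k ^ 2 / 2) (c + R) := by
  obtain ⟨m, ⟨hm, h2⟩, rfl⟩ := h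
  rw [S.Ψ_mem_off T hm] at h'
  have h3 := lt_tmo S.pos hm.1 h2 (by
    by_contra t
    exact h' ⟨h2, fun e => t (Or.inr e), fun e => t (Or.inl e)⟩)
  rw [S.time_Ψ T hm]
  constructor <;> linarith [tmo_lt hm]

end Sph

/-- `χ_η s` extends over `U` as the unit frame `t` -/
structure Xt {v : ℝ → Z2} (T : Tb IN N) (p : X T v → Matrix κ κ ℂ) (s : X T v → Matrix κ Unit ℂ) (η : Z2)
    (t : X T v → Matrix κ Unit ℂ) (U : Set (X T v)) : Prop where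
  uni : Uni (𝓡 4) (fun _ => 1) p t U
  eq : ∀ x ∈ U, x ∈ off T v → t x = (chi T v η x : ℂ) • s x

namespace Sph

variable {v : ℝ → Z2} {a b a' : Z2} {c : ℝ} (S : Sph v a b a' n c k R) (T : Tb IN N)
  {p : X T v → Matrix κ κ ℂ} {q : X T v → Matrix l l ℂ} {s t₁ t₂ : X T v → Matrix κ Unit ℂ}
  {s' t₁' t₂' : X T v → Matrix l Unit ℂ} {η₁ η₂ η₁' η₂' : Z2}

theorem cwa {j : Type*} [Fintype j] {u : X T v → Matrix κ j ℂ} (hm : m ∈ Dm k R) (hu : MSm (𝓡 4) u (S.Ψ T m)) :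
    ContinuousWithinAt (fun y => u (S.Ψ T y)) (Dm k R) m :=
  (msm_cont hu).self_of_nhds.comp_continuousWithinAt ((S.smD T).continuousOn m hm)

theorem fr2_of (h1 : Xt T p s η₁ t₁ (S.O1 T)) (h2 : Xt T p s η₂ t₂ (S.O2 T)) (hb : dot η₁ b = dot η₂ b) :
    S.Fr2 T p (dot η₂ a' - dot η₁ a') t₁ t₂ := by
  refine ⟨fun m hm h => ⟨h1.uni.sm _ ⟨m, ⟨hm, h⟩, rfl⟩, h1.uni.iso _ ⟨m, ⟨hm, h⟩, rfl⟩⟩,
    fun m hm h => ⟨h2.uni.sm _ ⟨m, ⟨hm, h⟩, rfl⟩, h2.uni.iso _ ⟨m, ⟨hm, h⟩, rfl⟩⟩, fun m hm k1 k2 => ?_⟩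
  have d1 := (cm_dir (f := fun y : C3 => y.1.1) contDiff_fst.fst'.contMDiff.contMDiffAt k1)
  have d2 := (cm_dir (f := fun y : C3 => y.1.2) contDiff_snd.fst'.contMDiff.contMDiffAt k2)
  refine S.eq_of_off T (f := fun y => t₂ (S.Ψ T y)) (g := fun y =>
      (((dir y.1.2 * (dir y.1.1)⁻¹) ^ (dot η₂ a' - dot η₁ a') : Circle) : ℂ) • t₁ (S.Ψ T y)) hm
    (S.cwa T hm (h2.uni.sm _ ⟨m, ⟨hm, k1⟩, rfl⟩))
    ((cm_coe (cm_zpow (d2.mul d1.inv) _)).continuousAt.continuousWithinAt.smul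
      (S.cwa T hm (h1.uni.sm _ ⟨m, ⟨hm, k2⟩, rfl⟩))) (Eventually.of_forall fun y hy ho => ?_)
  obtain ⟨o1, o2, o3⟩ := (S.Ψ_mem_off T hy).1 ho
  rw [h1.eq _ ⟨y, ⟨hy, o2⟩, rfl⟩ ho, h2.eq _ ⟨y, ⟨hy, o1⟩, rfl⟩ ho, csmul_smul, S.chi_Ψ T _ o1 o2 o3,
    S.chi_Ψ T _ o1 o2 o3, eq_sub_of_add_eq (S.dot_sum η₁), eq_sub_of_add_eq (S.dot_sum η₂), hb]
  congr 2
  simp only [mul_zpow, _root_.zpow_sub, _root_.inv_zpow]
  apply Circle.ext
  simp only [Circle.coe_mul, Circle.coe_inv, Circle.coe_zpow]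
  have := (dir y.1.1).coe_ne_zero
  have := (dir y.1.2).coe_ne_zero
  field_simp

theorem Eqv.cwa {μ : ℤ} {E : C3 → Matrix κ Unit ℂ} (h : S.Eqv T p μ E) (hm : m ∈ Dm k R) :
    ContinuousWithinAt E (Dm k R) m :=
  continuousWithinAt_pi.2 fun i => continuousWithinAt_pi.2 fun j => (h.sm i j).continuousOn m hm

/-- the hypothesis of `exists_uni` is tested off the axis -/
theorem eq_large {μ ν : ℤ} {E : C3 → Matrix κ Unit ℂ} {E' : C3 → Matrix l Unit ℂ} (hE : S.Eqv T p μ E)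
    (hE' : S.Eqv T q ν E') {ρ : ℝ} (h0 : 0 < ρ) {u : X T v → Matrix κ l ℂ} (hm : m ∈ Dm k R)
    (hρ : ρ < ‖m.2‖ ^ 2) (hu : MSm (𝓡 4) u (S.Ψ T m))
    (he : ∀ y ∈ Dm k R, ρ < ‖y.2‖ ^ 2 → S.Ψ T y ∈ off T v →
      u (S.Ψ T y) = (((dir y.2 ^ e) ^ μ : Circle) : ℂ) • (E y * (E' y)ᴴ)) :
    u (S.Ψ T m) = (((dir m.2 ^ e) ^ μ : Circle) : ℂ) • (E m * (E' m)ᴴ) := by
  have w0 : m.2 ≠ 0 := fun t => by
    rw [t] at hρ
    simp at hρ
    linarith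
  have cm : Continuous fun z : Matrix κ Unit ℂ × Matrix l Unit ℂ => z.1 * z.2ᴴ :=
    continuous_fst.matrix_mul continuous_snd.matrix_conjTranspose
  have c1 : ContinuousWithinAt (fun y => E y * (E' y)ᴴ) (Dm k R) m :=
    ContinuousAt.comp_continuousWithinAt (f := fun y => (E y, E' y)) cm.continuousAt
      ((Eqv.cwa S T hE hm).prodMk (Eqv.cwa S T hE' hm))
  have c2 : ContinuousAt (fun y : C3 => (((dir y.2 ^ e) ^ μ : Circle) : ℂ)) m :=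
    (cm_coe (cm_zpow ((cm_dir (f := fun y : C3 => y.2) contDiff_snd.contMDiff.contMDiffAt w0).pow e)
      μ)).continuousAt
  refine S.eq_of_off T (f := fun y => u (S.Ψ T y)) hm (S.cwa T hm hu) (c2.continuousWithinAt.smul c1) ?_
  filter_upwards [(isOpen_lt continuous_const (by fun_prop : Continuous fun y : C3 => ‖y.2‖ ^ 2)).mem_nhds hρ]
    with y hy hD ho using he y hD hy ho

/-- **toric lines under the twist**: `s`, `s'` are toric frames off the axis; the degrees on the rods `a`, `a'` agree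
and the degree on the sphere is reflected.  The isometry `u` with `u s' = s` extends over the core as an isometry
`q → τ^* p`. -/
theorem exists_uni_tor (hn : n * e = 2) (hr : r ∈ Ioo (k ^ 2 / 2) R)
    (h1 : Xt T p s η₁ t₁ (S.O1 T)) (h2 : Xt T p s η₂ t₂ (S.O2 T)) (hb : dot η₁ b = dot η₂ b)
    (h1' : Xt T q s' η₁' t₁' (S.O1 T)) (h2' : Xt T q s' η₂' t₂' (S.O2 T)) (hb' : dot η₁' b = dot η₂' b)
    (ha : dot η₁' a = dot η₁ a) (ha' : dot η₂' a' = dot η₂ a')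
    (hm : dot η₂' b = dot η₂ b + e * (dot η₂ a' - dot η₁ a')) {O : Set (X T v)}
    {u : X T v → Matrix κ l ℂ} (hO : S.Ψ T '' Dm k R ⊆ O) (hu : Uni (𝓡 4) q p u (O \ S.K T (rh k r)))
    (he : ∀ x ∈ S.Ψ T '' Dm k R, x ∉ S.K T (rh k r) → x ∈ off T v → u x * s' x = s x) :
    ∃ U, Uni (𝓡 4) q (fun x => p (S.tau T hn hr x)) U O ∧ ∀ x ∉ S.K T (rh k r), U x = u x := by
  have F := S.fr2_of T h1 h2 hb
  have F' := S.fr2_of T h1' h2' hb'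
  have hn' : (n : ℤ) * e = 2 := by exact_mod_cast hn
  have e0 : dot η₂' a' - dot η₁' a' = -(dot η₂ a' - dot η₁ a') := by
    have := S.dot_sum η₁
    have := S.dot_sum η₁'
    have : (n : ℤ) * dot η₂' b = n * dot η₂ b + 2 * (dot η₂ a' - dot η₁ a') := by
      rw [hm, ← hn']; ring
    rw [hb'] at *
    rw [hb] at *
    linarith
  rw [e0] at F'
  have nK : ∀ y ∈ Dm k R, rh k r < ‖y.2‖ ^ 2 → S.Ψ T y ∈ O \ S.K T (rh k r) := fun y hy h =>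
    ⟨hO ⟨y, hy, rfl⟩, fun t => h.not_ge ((S.Ψ_mem_K T hr.2 hy).1 t)⟩
  refine S.exists_uni T hn hr F.eqv F'.eqv hu fun m hm0 hρ => S.eq_large T F.eqv F'.eqv (rh_pos S.pos hr.1)
    hm0 hρ (hu.sm _ (nK m hm0 hρ)) fun y hD hy ho => ?_
  obtain ⟨o1, o2, o3⟩ := (S.Ψ_mem_off T hD).1 ho
  have y2 : S.Ψ T y ∈ S.O2 T := ⟨y, ⟨hD, o1⟩, rfl⟩
  have k1 : s' (S.Ψ T y) * (s' (S.Ψ T y))ᴴ = q (S.Ψ T y) := by
    rw [← (h2'.uni.iso _ y2).tgt, h2'.eq _ y2 ho, smul_mul_ct, mul_inv_cancel, Circle.coe_one, one_smul]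
  have k2 : dot η₂' a = dot η₂ a + 2 * (dot η₂ a' - dot η₁ a') := by
    rw [eq_sub_of_add_eq (S.dot_sum η₂'), eq_sub_of_add_eq (S.dot_sum η₂), hm, ha', ← hn']
    ring
  rw [S.eqs_2 T o1, S.eqs_2 T o1, h2.eq _ y2 ho, h2'.eq _ y2 ho, csmul_smul, csmul_smul, smul_mul_ct,
    csmul_smul, ← he _ ⟨y, hD, rfl⟩ (nK y hD hy).2 ho, Matrix.mul_assoc, k1, (hu.iso _ (nK y hD hy)).idem,
    S.chi_Ψ T _ o1 o2 o3, S.chi_Ψ T _ o1 o2 o3, k2, hm, ha']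
  generalize dot η₂ a' - dot η₁ a' = μ
  refine ((one_smul ℂ _).symm.trans ?_)
  congr 1
  simp only [_root_.zpow_add, two_mul, _root_.zpow_mul, zpow_natCast, _root_.zpow_neg, Circle.coe_mul,
    Circle.coe_inv]
  generalize dir y.1.1 ^ μ = A, (dir y.2 ^ e) ^ μ = B, dir y.1.1 ^ dot η₂ a = C, dir y.1.2 ^ dot η₂ a' = D,
    dir y.2 ^ dot η₂ b = G
  have := A.coe_ne_zero
  have := B.coe_ne_zero
  have := C.coe_ne_zero
  have := D.coe_ne_zero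
  have := G.coe_ne_zero
  field_simp

end Sph

end Crest.Agent.X212.Tau19
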