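import Crest.Agent.X212.Rod53.Band

/-!
# X212 / Tau19, part Mod (helper19): the model `(S³ × ℂ) / S¹` of a neighbourhood of a `-n` sphere

* `act n l (z₁, z₂, w) = (l z₁, l z₂, l⁻ⁿ w)`; `Un` the unit sphere condition;
* `tt e ρ ε` (`n e = 2`) : the lift of the Dehn twist (`n = 2`) or of the reflection in an exceptional sphere
  (`n = 1`); it covers `l ↦ l⁻¹`, `tt e ρ (-ε)` is its inverse, it is the action of `dir w ^ e` for `ρ ≤ ‖w‖²`;
* `V2 n k`, `V1 n k` : prolate coordinates in the two vertex charts, `s2 k`, `s1 k` their sections.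
-/

set_option autoImplicit false
set_option linter.unusedSectionVars false

open Set Filter Topology Function
open scoped ContDiff Manifold ComplexConjugate

noncomputable section

namespace Crest.Agent.X212.Tau19

open Crest.Agent.X212.Glue52 Crest.Agent.X212.Rod53

/-- the total space of the model -/
abbrev C3 : Type := (ℂ × ℂ) × ℂ

/-- the circle action with weights `1, 1, -n` -/
def act (n : ℕ) (l : Circle) (m : C3) : C3 := ((l * m.1.1, l * m.1.2), (l⁻¹ ^ n : Circle) * m.2)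

/-- the unit sphere -/
def Un (m : C3) : Prop := ‖m.1.1‖ ^ 2 + ‖m.1.2‖ ^ 2 = 1

/-- exchange of the two homogeneous coordinates -/
def sw (m : C3) : C3 := (m.1.swap, m.2)

variable {n e : ℕ}

theorem act_act (l l' : Circle) (m : C3) : act n l (act n l' m) = act n (l * l') m := by
  simp only [act, Circle.coe_mul, Circle.coe_pow, mul_inv, mul_pow, mul_assoc]

theorem act_one (m : C3) : act n 1 m = m := by simp [act]

theorem norm_act1 (l : Circle) (m : C3) : ‖(act n l m).1.1‖ = ‖m.1.1‖ := by simp [act]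
theorem norm_act2 (l : Circle) (m : C3) : ‖(act n l m).1.2‖ = ‖m.1.2‖ := by simp [act]
theorem norm_act3 (l : Circle) (m : C3) : ‖(act n l m).2‖ = ‖m.2‖ := by simp [act]

theorem Un.act {m : C3} (h : Un m) (l : Circle) : Un (act n l m) := by
  rw [Un, norm_act1, norm_act2]; exact h

theorem Un.sw {m : C3} (h : Un m) : Un (sw m) := (add_comm _ _).trans h

theorem sw_act (l : Circle) (m : C3) : sw (act n l m) = act n l (sw m) := rfl
theorem sw_sw (m : C3) : sw (sw m) = m := rfl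

theorem Un.ne {m : C3} (h : Un m) (e : m.1.1 = 0) : m.1.2 ≠ 0 := fun k => by
  rw [Un, e, k] at h; simp at h

theorem contDiff_sw : ContDiff ℝ ∞ sw := by
  unfold sw
  exact (contDiff_snd.fst'.prodMk contDiff_fst.fst').prodMk contDiff_snd

/-! ### the twist -/

/-- the angle -/
def ph (ρ W : ℝ) : ℝ := Real.pi / 2 * Real.smoothTransition (2 * W / ρ - 1)

/-- coefficient of `wᵉ z` -/
def al (e : ℕ) (ρ W : ℝ) : ℝ := Real.sin (ph ρ W) / √W ^ e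

/-- coefficient of `j z` -/
def be (ρ W : ℝ) : ℝ := Real.cos (ph ρ W)

variable {ρ W : ℝ}

theorem ph_small (hρ : 0 < ρ) (h : W ≤ ρ / 2) : ph ρ W = 0 := by
  rw [ph, Real.smoothTransition.zero_of_nonpos, mul_zero]
  rw [sub_nonpos, div_le_one hρ]
  linarith

theorem ph_large (hρ : 0 < ρ) (h : ρ ≤ W) : ph ρ W = Real.pi / 2 := by
  rw [ph, Real.smoothTransition.one_of_one_le, mul_one]
  rw [le_sub_iff_add_le, le_div_iff₀ hρ]
  linarith

theorem contDiff_ph (ρ : ℝ) : ContDiff ℝ ∞ (ph ρ) :=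
  contDiff_const.mul (Real.smoothTransition.contDiff.comp (by fun_prop))

theorem contDiff_be (ρ : ℝ) : ContDiff ℝ ∞ (be ρ) := Real.contDiff_cos.comp (contDiff_ph ρ)

theorem contDiff_al (hρ : 0 < ρ) : ContDiff ℝ ∞ (al e ρ) := by
  refine contDiff_iff_contDiffAt.2 fun W => ?_
  rcases lt_or_ge W (ρ / 2) with h | h
  · refine (contDiffAt_const (c := 0)).congr_of_eventuallyEq ?_
    filter_upwards [Iio_mem_nhds h] with t ht
    rw [al, ph_small hρ (le_of_lt ht), Real.sin_zero, zero_div]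
  · have h0 : 0 < W := by linarith
    exact (Real.contDiff_sin.comp (contDiff_ph ρ)).contDiffAt.div ((Real.contDiffAt_sqrt h0.ne').pow e)
      (pow_pos (Real.sqrt_pos.2 h0) e).ne'

theorem al_be (hρ : 0 < ρ) (h : 0 ≤ W) : al e ρ W ^ 2 * W ^ e + be ρ W ^ 2 = 1 := by
  rcases h.eq_or_lt with rfl | h0
  · rw [al, be, ph_small hρ (by linarith)]
    simp
  · rw [al, be, div_pow, ← pow_mul, mul_comm e, pow_mul, Real.sq_sqrt h,
      div_mul_cancel₀ _ (pow_pos h0 e).ne', Real.sin_sq_add_cos_sq]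

/-- the lift of the Dehn twist -/
def tt (e : ℕ) (ρ ε : ℝ) (m : C3) : C3 :=
  ((al e ρ (‖m.2‖ ^ 2) * m.2 ^ e * m.1.1 - ε * be ρ (‖m.2‖ ^ 2) * conj m.1.2,
    al e ρ (‖m.2‖ ^ 2) * m.2 ^ e * m.1.2 + ε * be ρ (‖m.2‖ ^ 2) * conj m.1.1), conj m.2)

variable {ε : ℝ}

theorem norm_tt (m : C3) : ‖(tt e ρ ε m).2‖ = ‖m.2‖ := by simp [tt]

theorem al_be_c (e : ℕ) (hρ : 0 < ρ) (w : ℂ) :
    (al e ρ (‖w‖ ^ 2) : ℂ) ^ 2 * (w ^ e * conj w ^ e) + (be ρ (‖w‖ ^ 2) : ℂ) ^ 2 = 1 := by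
  rw [← mul_pow, Complex.mul_conj, Complex.normSq_eq_norm_sq]
  exact_mod_cast al_be hρ (sq_nonneg ‖w‖)

theorem tt_tt (hρ : 0 < ρ) (hε : ε * ε = 1) (m : C3) : tt e ρ (-ε) (tt e ρ ε m) = m := by
  have h1 := al_be_c e hρ m.2
  have h2 : (ε : ℂ) * ε = 1 := by exact_mod_cast hε
  refine Prod.ext (Prod.ext ?_ ?_) ?_
  · simp only [tt, Complex.norm_conj, map_add, map_mul, map_pow, Complex.conj_ofReal, Complex.conj_conj,
      Complex.ofReal_neg]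
    linear_combination m.1.1 * h1 + (be ρ (‖m.2‖ ^ 2) : ℂ) ^ 2 * m.1.1 * h2
  · simp only [tt, Complex.norm_conj, map_sub, map_mul, map_pow, Complex.conj_ofReal, Complex.conj_conj,
      Complex.ofReal_neg]
    linear_combination m.1.2 * h1 + (be ρ (‖m.2‖ ^ 2) : ℂ) ^ 2 * m.1.2 * h2
  · simp [tt]

theorem Un.tt (hρ : 0 < ρ) (hε : ε * ε = 1) {m : C3} (h : Un m) : Un (tt e ρ ε m) := by
  have h1 := al_be_c e hρ m.2
  have h2 : (ε : ℂ) * ε = 1 := by exact_mod_cast hε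
  have k : ∀ z : ℂ, ((‖z‖ ^ 2 : ℝ) : ℂ) = z * conj z := fun z => by
    rw [Complex.mul_conj, Complex.normSq_eq_norm_sq]
  have h3 : m.1.1 * conj m.1.1 + m.1.2 * conj m.1.2 = 1 := by
    rw [← k, ← k]; exact_mod_cast h
  apply Complex.ofReal_injective
  rw [Complex.ofReal_add, k, k]
  simp only [Tau19.tt, map_add, map_sub, map_mul, map_pow, Complex.conj_ofReal, Complex.conj_conj,
    Complex.ofReal_one]
  linear_combination (m.1.1 * conj m.1.1 + m.1.2 * conj m.1.2) * h1 + h3 +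
    (be ρ (‖m.2‖ ^ 2) : ℂ) ^ 2 * (m.1.1 * conj m.1.1 + m.1.2 * conj m.1.2) * h2

theorem tt_act (hn : n * e = 2) (l : Circle) (m : C3) :
    tt e ρ ε (act n l m) = act n l⁻¹ (tt e ρ ε m) := by
  have h1 : (l : ℂ) ≠ 0 := l.coe_ne_zero
  have h3 : ((l : ℂ)⁻¹ ^ n) ^ e = (l : ℂ)⁻¹ ^ 2 := by rw [← pow_mul, hn]
  have h2 : conj (l : ℂ) = (l : ℂ)⁻¹ := by rw [← Circle.coe_inv_eq_conj, Circle.coe_inv]
  refine Prod.ext (Prod.ext ?_ ?_) ?_
  · simp only [tt, norm_act3]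
    simp only [act, Circle.coe_pow, Circle.coe_inv, map_mul, h2, mul_pow, h3]
    field_simp
  · simp only [tt, norm_act3]
    simp only [act, Circle.coe_pow, Circle.coe_inv, map_mul, h2, mul_pow, h3]
    field_simp
  · simp only [tt, act, Circle.coe_pow, Circle.coe_inv, map_mul, map_pow, map_inv₀, h2, inv_inv]

theorem tt_large (hn : n * e = 2) (hρ : 0 < ρ) {m : C3} (h : ρ ≤ ‖m.2‖ ^ 2) :
    tt e ρ ε m = act n (dir m.2 ^ e) m := by
  have h0 : m.2 ≠ 0 := fun e => by rw [e] at h; simp at h; linarith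
  have h1 : (‖m.2‖ : ℂ) ≠ 0 := by exact_mod_cast norm_ne_zero_iff.2 h0
  have h2 : (al e ρ (‖m.2‖ ^ 2) : ℂ) * m.2 ^ e = (dir m.2 : ℂ) ^ e := by
    rw [al, ph_large hρ h, Real.sin_pi_div_two, Real.sqrt_sq (norm_nonneg _), coe_dir h0]
    push_cast
    rw [div_pow]
    field_simp
  have h3 : be ρ (‖m.2‖ ^ 2) = 0 := by rw [be, ph_large hρ h, Real.cos_pi_div_two]
  refine Prod.ext (Prod.ext ?_ ?_) ?_
  · simp [tt, act, h2, h3]
  · simp [tt, act, h2, h3]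
  · have h4 : ((dir m.2 : Circle) : ℂ) ≠ 0 := Circle.coe_ne_zero _
    simp only [tt, act, Circle.coe_pow, Circle.coe_inv]
    rw [inv_pow, ← pow_mul, mul_comm e, hn]
    conv_lhs => rw [← norm_mul_dir m.2, map_mul, Complex.conj_ofReal, ← Circle.coe_inv_eq_conj,
      Circle.coe_inv]
    conv_rhs => enter [2]; rw [← norm_mul_dir m.2]
    field_simp

theorem tt_small (hρ : 0 < ρ) {m : C3} (h : ‖m.2‖ ^ 2 ≤ ρ / 2) :
    tt e ρ ε m = ((-(ε * conj m.1.2), ε * conj m.1.1), conj m.2) := by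
  simp [tt, al, be, ph_small hρ h]

theorem contDiff_tt (e : ℕ) (hρ : 0 < ρ) (ε : ℝ) : ContDiff ℝ ∞ (tt e ρ ε) := by
  have h0 : ContDiff ℝ ∞ fun m : C3 => ‖m.2‖ ^ 2 := (contDiff_norm_sq ℝ).comp contDiff_snd
  have h1 : ContDiff ℝ ∞ fun m : C3 => (al e ρ (‖m.2‖ ^ 2) : ℂ) :=
    Complex.ofRealCLM.contDiff.comp ((contDiff_al hρ).comp h0)
  have h2 : ContDiff ℝ ∞ fun m : C3 => (be ρ (‖m.2‖ ^ 2) : ℂ) :=
    Complex.ofRealCLM.contDiff.comp ((contDiff_be ρ).comp h0)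
  have c : ∀ {f : C3 → ℂ}, ContDiff ℝ ∞ f → ContDiff ℝ ∞ fun m => conj (f m) :=
    fun hf => Complex.conjCLE.contDiff.comp hf
  exact ((((h1.mul (contDiff_snd.pow e)).mul contDiff_fst.fst').sub
    ((contDiff_const.mul h2).mul (c contDiff_snd.fst'))).prodMk
    (((h1.mul (contDiff_snd.pow e)).mul contDiff_snd.fst').add
      ((contDiff_const.mul h2).mul (c contDiff_fst.fst')))).prodMk (c contDiff_snd)

/-! ### prolate coordinates -/

/-- `√(1 + ‖w‖²)` -/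
def ch (w : ℂ) : ℝ := √(1 + ‖w‖ ^ 2)

theorem ch_pos (w : ℂ) : 0 < ch w := Real.sqrt_pos.2 (by positivity)
theorem ch_sq (w : ℂ) : ch w ^ 2 = 1 + ‖w‖ ^ 2 := Real.sq_sqrt (by positivity)
theorem ch_congr {w w' : ℂ} (h : ‖w‖ = ‖w'‖) : ch w = ch w' := by rw [ch, ch, h]

theorem contDiff_ch : ContDiff ℝ ∞ ch :=
  (contDiff_const.add (contDiff_norm_sq ℝ)).sqrt fun w => by positivity

/-- coordinates in the right vertex chart -/
def V2 (n : ℕ) (k : ℝ) (m : C3) : ℂ × ℂ :=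
  (k * (‖m.1.1‖ * (dir m.1.1 ^ n : Circle) * m.2), (k * ch m.2 : ℝ) * (m.1.2 * ((dir m.1.1)⁻¹ : Circle)))

/-- coordinates in the left vertex chart -/
def V1 (n : ℕ) (k : ℝ) (m : C3) : ℂ × ℂ := (V2 n k (sw m)).swap

variable {k : ℝ}

theorem norm_V21 (hk : 0 < k) (m : C3) : ‖(V2 n k m).1‖ = k * (‖m.1.1‖ * ‖m.2‖) := by
  simp [V2, abs_of_pos hk]

theorem norm_V22 (hk : 0 < k) (m : C3) : ‖(V2 n k m).2‖ = k * ch m.2 * ‖m.1.2‖ := by
  simp [V2, abs_of_pos hk, abs_of_pos (ch_pos m.2)]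

theorem V2_act (l : Circle) {m : C3} (h : m.1.1 ≠ 0) : V2 n k (act n l m) = V2 n k m := by
  have h1 : (l : ℂ) ≠ 0 := l.coe_ne_zero
  have h2 : dir (act n l m).1.1 = dir m.1.1 * l := by
    rw [← dir_mul_circle h, mul_comm]; rfl
  have h3 : ((dir m.1.1 : Circle) : ℂ) ≠ 0 := Circle.coe_ne_zero _
  refine Prod.ext ?_ ?_
  · simp only [V2, h2, norm_act1]
    simp only [act, Circle.coe_mul, Circle.coe_pow, Circle.coe_inv, mul_pow, inv_pow]
    field_simp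
  · simp only [V2, h2, ch_congr (norm_act3 l m)]
    simp only [act, Circle.coe_mul, Circle.coe_inv]
    field_simp

theorem V1_act (l : Circle) {m : C3} (h : m.1.2 ≠ 0) : V1 n k (act n l m) = V1 n k m := by
  rw [V1, sw_act, V2_act l (m := sw m) h, V1]

theorem cd_dir {E : Type} [NormedAddCommGroup E] [NormedSpace ℝ E] {f : E → ℂ} {x : E}
    (hf : ContDiffAt ℝ ∞ f x) (h : f x ≠ 0) (n : ℤ) :
    ContDiffAt ℝ ∞ (fun y => ((dir (f y) ^ n : Circle) : ℂ)) x :=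
  (cm_coe (cm_zpow (cm_dir hf.contMDiffAt h) n)).contDiffAt

theorem contDiffAt_V2 (n : ℕ) (k : ℝ) {m : C3} (h : m.1.1 ≠ 0) : ContDiffAt ℝ ∞ (V2 n k) m := by
  have f1 : ContDiffAt ℝ ∞ (fun m : C3 => m.1.1) m := contDiffAt_fst.fst'
  have f2 : ContDiffAt ℝ ∞ (fun m : C3 => m.1.2) m := contDiffAt_snd.fst'
  have d1 := cd_dir f1 h n
  have d2 := cd_dir f1 h (-1)
  have d3 : ContDiffAt ℝ ∞ (fun m : C3 => (‖m.1.1‖ : ℂ)) m :=
    (cm_ofReal (cm_norm f1.contMDiffAt h)).contDiffAt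
  simp only [zpow_one, zpow_neg, zpow_natCast] at d1 d2
  exact (contDiffAt_const.mul ((d3.mul d1).mul contDiffAt_snd)).prodMk
    ((Complex.ofRealCLM.contDiff.contDiffAt.comp m
      (contDiffAt_const.mul (contDiff_ch.contDiffAt.comp m contDiffAt_snd))).mul (f2.mul d2))

theorem contDiffAt_V1 (n : ℕ) (k : ℝ) {m : C3} (h : m.1.2 ≠ 0) : ContDiffAt ℝ ∞ (V1 n k) m :=
  (contDiffAt_snd.prodMk contDiffAt_fst).comp m
    ((contDiffAt_V2 n k (m := sw m) h).comp m contDiff_sw.contDiffAt)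

/-- the trace `‖w‖² - ‖z₁‖²` as a function on the vertex chart -/
def tr (k : ℝ) (Z : ℂ × ℂ) : ℝ := (‖Z.1‖ ^ 2 + ‖Z.2‖ ^ 2) / k ^ 2 - 1

/-- the discriminant `(‖w‖² + ‖z₁‖²)²` -/
def ds (k : ℝ) (Z : ℂ × ℂ) : ℝ := tr k Z ^ 2 + 4 * (‖Z.1‖ ^ 2 / k ^ 2)

/-- `‖z₁‖²` as a function on the vertex chart -/
def pp (k : ℝ) (Z : ℂ × ℂ) : ℝ := (√(ds k Z) - tr k Z) / 2

/-- the third coordinate of the section -/
def w2 (k : ℝ) (Z : ℂ × ℂ) : ℂ := ((k * √(pp k Z))⁻¹ : ℝ) * Z.1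

/-- the section of `V2` -/
def s2 (k : ℝ) (Z : ℂ × ℂ) : C3 := ((√(pp k Z), ((k * ch (w2 k Z))⁻¹ : ℝ) * Z.2), w2 k Z)

/-- the section of `V1` -/
def s1 (k : ℝ) (Z : ℂ × ℂ) : C3 := sw (s2 k Z.swap)

theorem tr_V2 (hk : 0 < k) {m : C3} (h : Un m) : tr k (V2 n k m) = ‖m.2‖ ^ 2 - ‖m.1.1‖ ^ 2 := by
  have h1 := ch_sq m.2
  rw [tr, norm_V21 hk, norm_V22 hk]
  unfold Un at h
  field_simp
  linear_combination ‖m.1.2‖ ^ 2 * h1 + (1 + ‖m.2‖ ^ 2) * h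

theorem ds_V2 (hk : 0 < k) {m : C3} (h : Un m) : ds k (V2 n k m) = (‖m.2‖ ^ 2 + ‖m.1.1‖ ^ 2) ^ 2 := by
  rw [ds, tr_V2 hk h, norm_V21 hk]
  field_simp
  ring

theorem pp_V2 (hk : 0 < k) {m : C3} (h : Un m) : pp k (V2 n k m) = ‖m.1.1‖ ^ 2 := by
  rw [pp, ds_V2 hk h, tr_V2 hk h, Real.sqrt_sq (by positivity)]
  ring

theorem s2_V2 (hk : 0 < k) {m : C3} (h : Un m) (h1 : m.1.1 ≠ 0) :
    s2 k (V2 n k m) = act n (dir m.1.1)⁻¹ m := by
  have h2 : (‖m.1.1‖ : ℂ) ≠ 0 := by exact_mod_cast norm_ne_zero_iff.2 h1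
  have h3 : ((dir m.1.1 : Circle) : ℂ) ≠ 0 := Circle.coe_ne_zero _
  have h4 : (k : ℂ) ≠ 0 := by exact_mod_cast hk.ne'
  have h5 : (ch m.2 : ℂ) ≠ 0 := by exact_mod_cast (ch_pos m.2).ne'
  have h6 := norm_mul_dir m.1.1
  have e : w2 k (V2 n k m) = (act n (dir m.1.1)⁻¹ m).2 := by
    rw [w2, pp_V2 hk h, Real.sqrt_sq (norm_nonneg _)]
    simp only [V2, act, inv_inv, Circle.coe_pow]
    push_cast
    field_simp
  refine Prod.ext (Prod.ext ?_ ?_) e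
  · simp only [s2, act, pp_V2 hk h, Real.sqrt_sq (norm_nonneg _), Circle.coe_inv]
    field_simp
    linear_combination h6
  · simp only [s2, e, ch_congr (norm_act3 _ m)]
    simp only [V2, act, Circle.coe_inv]
    push_cast
    field_simp

theorem s1_V1 (hk : 0 < k) {m : C3} (h : Un m) (h1 : m.1.2 ≠ 0) :
    s1 k (V1 n k m) = act n (dir m.1.2)⁻¹ m := by
  rw [s1, V1, Prod.swap_swap, s2_V2 hk h.sw h1]
  rfl

theorem ds_nonneg (Z : ℂ × ℂ) : 0 ≤ ds k Z := by unfold ds; positivity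

theorem pp_eq (Z : ℂ × ℂ) : pp k Z ^ 2 + tr k Z * pp k Z = ‖Z.1‖ ^ 2 / k ^ 2 := by
  have h := Real.sq_sqrt (ds_nonneg (k := k) Z)
  unfold pp
  unfold ds at h ⊢
  nlinarith

theorem norm_w2 (hk : 0 < k) {Z : ℂ × ℂ} (h : 0 < pp k Z) : ‖w2 k Z‖ ^ 2 = pp k Z + tr k Z := by
  have h1 := pp_eq (k := k) Z
  have h2 := Real.sqrt_pos.2 h
  rw [w2, norm_mul, Complex.norm_real, Real.norm_of_nonneg (by positivity), mul_pow, inv_pow, mul_pow,
    Real.sq_sqrt h.le]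
  field_simp at h1 ⊢
  linarith

theorem un_s2 (hk : 0 < k) {Z : ℂ × ℂ} (h : 0 < pp k Z) : Un (s2 k Z) := by
  have h1 := pp_eq (k := k) Z
  have h2 := norm_w2 hk h
  have h3 := ch_sq (w2 k Z)
  have h4 := ch_pos (w2 k Z)
  have h5 : tr k Z = (‖Z.1‖ ^ 2 + ‖Z.2‖ ^ 2) / k ^ 2 - 1 := rfl
  simp only [Un, s2]
  rw [norm_mul, Complex.norm_real, Complex.norm_real, Real.norm_of_nonneg (Real.sqrt_nonneg _),
    Real.norm_of_nonneg (by positivity), Real.sq_sqrt h.le, mul_pow, inv_pow, mul_pow, h3, h2]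
  have h6 : 0 < 1 + (pp k Z + tr k Z) := by rw [← h2]; positivity
  generalize pp k Z = p at *
  generalize tr k Z = t at *
  field_simp at h1 h5 ⊢
  linear_combination h1 - h5

theorem s2_ne {Z : ℂ × ℂ} (h : 0 < pp k Z) : (s2 k Z).1.1 ≠ 0 := by
  simp only [s2]
  exact_mod_cast (Real.sqrt_pos.2 h).ne'

theorem V2_s2 (hk : 0 < k) {Z : ℂ × ℂ} (h : 0 < pp k Z) : V2 n k (s2 k Z) = Z := by
  have h1 := Real.sqrt_pos.2 h
  have h2 : dir (√(pp k Z) : ℂ) = 1 := by simpa using dir_mul h1 1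
  have h3 : (√(pp k Z) : ℂ) ≠ 0 := by exact_mod_cast h1.ne'
  have h4 : (k : ℂ) ≠ 0 := by exact_mod_cast hk.ne'
  have h5 : (ch (w2 k Z) : ℂ) ≠ 0 := by exact_mod_cast (ch_pos _).ne'
  refine Prod.ext ?_ ?_
  · simp only [V2, s2, h2, w2, one_pow, Circle.coe_one, Complex.norm_real, Real.norm_of_nonneg h1.le]
    push_cast
    field_simp
  · simp only [V2, s2, h2, inv_one, Circle.coe_one]
    push_cast
    field_simp

theorem contDiff_tr (k : ℝ) : ContDiff ℝ ∞ (tr k) :=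
  ((((contDiff_norm_sq ℝ).comp contDiff_fst).add ((contDiff_norm_sq ℝ).comp contDiff_snd)).div_const
    _).sub contDiff_const

theorem contDiff_ds (k : ℝ) : ContDiff ℝ ∞ (ds k) :=
  ((contDiff_tr k).pow 2).add (contDiff_const.mul (((contDiff_norm_sq ℝ).comp contDiff_fst).div_const _))

theorem continuous_pp (k : ℝ) : Continuous (pp k) :=
  ((contDiff_ds k).continuous.sqrt.sub (contDiff_tr k).continuous).div_const _

theorem ds_pos {Z : ℂ × ℂ} (h : 0 < pp k Z) : 0 < ds k Z := by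
  refine (ds_nonneg Z).lt_of_ne fun e => ?_
  have h1 : tr k Z ^ 2 = 0 := by
    have : 0 ≤ ‖Z.1‖ ^ 2 / k ^ 2 := by positivity
    unfold ds at e
    nlinarith [sq_nonneg (tr k Z)]
  rw [pp, ← e, pow_eq_zero_iff two_ne_zero |>.1 h1] at h
  simp at h

theorem contDiffAt_s2 (hk : 0 < k) {Z : ℂ × ℂ} (h : 0 < pp k Z) : ContDiffAt ℝ ∞ (s2 k) Z := by
  have h1 : ContDiffAt ℝ ∞ (pp k) Z :=
    (((contDiff_ds k).contDiffAt.sqrt (ds_pos h).ne').sub (contDiff_tr k).contDiffAt).div_const _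
  have h2 : ContDiffAt ℝ ∞ (fun Z => √(pp k Z)) Z := h1.sqrt h.ne'
  have h0 := Real.sqrt_pos.2 h
  have r : ∀ {f : ℂ × ℂ → ℝ}, ContDiffAt ℝ ∞ f Z → ContDiffAt ℝ ∞ (fun y => (f y : ℂ)) Z :=
    fun hf => Complex.ofRealCLM.contDiff.contDiffAt.comp Z hf
  have h3 : ContDiffAt ℝ ∞ (w2 k) Z :=
    (r ((contDiffAt_const.mul h2).inv (by positivity))).mul contDiffAt_fst
  have h4 := ch_pos (w2 k Z)
  exact ((r h2).prodMk ((r ((contDiffAt_const.mul (contDiff_ch.contDiffAt.comp Z h3)).inv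
    (by simpa using ⟨hk.ne', h4.ne'⟩))).mul contDiffAt_snd)).prodMk h3

/-- the time of a point of the model, relative to the middle of the rod -/
def tmo (k : ℝ) (m : C3) : ℝ := k ^ 2 / 2 * ((‖m.1.1‖ ^ 2 - ‖m.1.2‖ ^ 2) * (1 + 2 * ‖m.2‖ ^ 2))

theorem tm_V2 (hk : 0 < k) (c : ℝ) {m : C3} (h : Un m) :
    tm (c + k ^ 2 / 2) (V2 n k m) = c + tmo k m := by
  have h1 := ch_sq m.2
  rw [tm, norm_V21 hk, norm_V22 hk, tmo]
  unfold Un at h
  linear_combination (-k ^ 2 * ‖m.1.2‖ ^ 2) * h1 - k ^ 2 / 2 * h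

theorem tm_V1 (hk : 0 < k) (c : ℝ) {m : C3} (h : Un m) :
    tm (c - k ^ 2 / 2) (V1 n k m) = c + tmo k m := by
  have h1 := tm_V2 (n := n) hk (-c) h.sw
  simp only [tm, V1, tmo, sw, Prod.fst_swap, Prod.snd_swap] at h1 ⊢
  linarith

/-- the base distance from the middle of the rod -/
theorem rad_le (hk : 0 < k) {m : C3} (h : Un m) :
    tmo k m ^ 2 + (2 * ‖(V2 n k m).1‖ * ‖(V2 n k m).2‖) ^ 2 ≤ (k ^ 2 / 2 * (1 + 2 * ‖m.2‖ ^ 2)) ^ 2 := by
  have h1 := ch_sq m.2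
  have e : tmo k m ^ 2 + (2 * ‖(V2 n k m).1‖ * ‖(V2 n k m).2‖) ^ 2 =
      (k ^ 2 / 2 * (1 + 2 * ‖m.2‖ ^ 2)) ^ 2 - (k ^ 2 * ‖m.1.1‖ * ‖m.1.2‖) ^ 2 := by
    rw [norm_V21 hk, norm_V22 hk, tmo]
    unfold Un at h
    linear_combination (4 * k ^ 4 * ‖m.1.1‖ ^ 2 * ‖m.1.2‖ ^ 2 * ‖m.2‖ ^ 2) * h1 +
      (k ^ 2 / 2 * (1 + 2 * ‖m.2‖ ^ 2)) ^ 2 * (‖m.1.1‖ ^ 2 + ‖m.1.2‖ ^ 2 + 1) * h
  rw [e]
  exact sub_le_self _ (sq_nonneg _)

theorem yy_V1 (hk : 0 < k) (m : C3) :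
    2 * ‖(V1 n k m).1‖ * ‖(V1 n k m).2‖ = 2 * ‖(V2 n k m).1‖ * ‖(V2 n k m).2‖ := by
  simp only [V1, Prod.fst_swap, Prod.snd_swap, norm_V21 hk, norm_V22 hk, sw]
  ring

end Crest.Agent.X212.Tau19
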